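import Mathlib

/-!
# P247, stage 2, package BX: the linear algebra of a graph in a box

`Q` is the almost complex structure in the coordinates `(z, y)` of the box, it is close to the
standard one and the discs `{z} × D` are complex.
-/

open Set Metric Complex

noncomputable section

namespace Vale.Agent.P247.H329

/-- endomorphisms of `ℂ × ℂ` -/
abbrev EC : Type := (ℂ × ℂ) →L[ℝ] (ℂ × ℂ)

/-- the coefficient of `ζ` in the first coordinate of `Q (ζ, 0)` -/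
def al (Q : EC) : ℂ := ((Q (1, 0)).1 - I * (Q (I, 0)).1) / 2
/-- the coefficient of the conjugate of `ζ` -/
def be (Q : EC) : ℂ := ((Q (1, 0)).1 + I * (Q (I, 0)).1) / 2
/-- the same for the second coordinate -/
def ga (Q : EC) : ℂ := ((Q (1, 0)).2 - I * (Q (I, 0)).2) / 2
def de (Q : EC) : ℂ := ((Q (1, 0)).2 + I * (Q (I, 0)).2) / 2

/-- the coefficients of the equation `∂̄ Y = m ∂ Y + A` -/
def mQ (Q : EC) : ℂ := be Q / (al Q + I)
def aQ (Q : EC) : ℂ := -de Q / (al Q + I)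

/-- `Q` is a complex structure, close to the standard one, with complex vertical lines -/
structure GoodQ (Q : EC) : Prop where
  sq : ∀ w, Q (Q w) = -w
  vert : Q (0, 1) = (0, I)
  near : ∀ w, ‖Q w - I • w‖ ≤ (1 / 10) * ‖w‖

variable {Q : EC}

theorem Q_split (h : GoodQ Q) (ζ η : ℂ) :
    Q (ζ, η) = (al Q * ζ + be Q * (starRingEnd ℂ) ζ,
      ga Q * ζ + de Q * (starRingEnd ℂ) ζ + I * η) := by
  have h1 : Q (0, I) = (0, -1) := by
    have := h.sq (0, 1)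
    rw [h.vert] at this
    rw [this]
    simp
  obtain ⟨x, y, rfl⟩ : ∃ x y : ℝ, ζ = x + y * I := ⟨ζ.re, ζ.im, (Complex.re_add_im ζ).symm⟩
  obtain ⟨u, v, rfl⟩ : ∃ x y : ℝ, η = x + y * I := ⟨η.re, η.im, (Complex.re_add_im η).symm⟩
  have h2 : ((x + y * I, u + v * I) : ℂ × ℂ) = x • ((1, 0) : ℂ × ℂ) + y • ((I, 0) : ℂ × ℂ) +
      u • ((0, 1) : ℂ × ℂ) + v • ((0, I) : ℂ × ℂ) := by
    ext <;> simp
  have hc : (starRingEnd ℂ) (x + y * I : ℂ) = x - y * I := by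
    simp [sub_eq_add_neg]
  rw [h2]
  rw [map_add, map_add, map_add, map_smul, map_smul, map_smul, map_smul, h.vert, h1]
  rw [hc]
  have hI : I * I = -1 := Complex.I_mul_I
  refine Prod.ext ?_ ?_
  · simp only [Prod.fst_add, Prod.smul_fst, al, be, smul_zero, add_zero, Complex.real_smul]
    linear_combination ((y : ℂ) * (Q (I, 0)).1) * hI
  · simp only [Prod.snd_add, Prod.smul_snd, ga, de, Complex.real_smul]
    linear_combination ((y : ℂ) * (Q (I, 0)).2 - (v : ℂ)) * hI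

theorem al_near (h : GoodQ Q) : ‖al Q - I‖ ≤ 1 / 10 := by
  have h1 := h.near (1, 0)
  have h2 := h.near (I, 0)
  have e1 : ‖(Q (1, 0)).1 - I‖ ≤ 1 / 10 := by
    calc ‖(Q (1, 0)).1 - I‖ = ‖(Q (1, 0) - I • ((1, 0) : ℂ × ℂ)).1‖ := by simp
      _ ≤ ‖Q (1, 0) - I • ((1, 0) : ℂ × ℂ)‖ := norm_fst_le _
      _ ≤ 1 / 10 * ‖((1, 0) : ℂ × ℂ)‖ := h1
      _ = 1 / 10 := by simp [Prod.norm_def]
  have e2 : ‖(Q (I, 0)).1 + 1‖ ≤ 1 / 10 := by
    calc ‖(Q (I, 0)).1 + 1‖ = ‖(Q (I, 0) - I • ((I, 0) : ℂ × ℂ)).1‖ := by simp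
      _ ≤ ‖Q (I, 0) - I • ((I, 0) : ℂ × ℂ)‖ := norm_fst_le _
      _ ≤ 1 / 10 * ‖((I, 0) : ℂ × ℂ)‖ := h2
      _ = 1 / 10 := by simp [Prod.norm_def]
  have e3 : al Q - I = (((Q (1, 0)).1 - I) - I * ((Q (I, 0)).1 + 1)) / 2 := by
    simp only [al]; ring
  rw [e3, norm_div]
  have e4 : ‖((Q (1, 0)).1 - I) - I * ((Q (I, 0)).1 + 1)‖ ≤ 1 / 10 + 1 / 10 := by
    refine (norm_sub_le _ _).trans (add_le_add e1 ?_)
    rw [norm_mul, Complex.norm_I, one_mul]
    exact e2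
  have e5 : ‖(2 : ℂ)‖ = 2 := by simp
  rw [e5]
  linarith

theorem be_near (h : GoodQ Q) : ‖be Q‖ ≤ 1 / 10 := by
  have h1 := h.near (1, 0)
  have h2 := h.near (I, 0)
  have e1 : ‖(Q (1, 0)).1 - I‖ ≤ 1 / 10 := by
    calc ‖(Q (1, 0)).1 - I‖ = ‖(Q (1, 0) - I • ((1, 0) : ℂ × ℂ)).1‖ := by simp
      _ ≤ ‖Q (1, 0) - I • ((1, 0) : ℂ × ℂ)‖ := norm_fst_le _
      _ ≤ 1 / 10 * ‖((1, 0) : ℂ × ℂ)‖ := h1
      _ = 1 / 10 := by simp [Prod.norm_def]
  have e2 : ‖(Q (I, 0)).1 + 1‖ ≤ 1 / 10 := by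
    calc ‖(Q (I, 0)).1 + 1‖ = ‖(Q (I, 0) - I • ((I, 0) : ℂ × ℂ)).1‖ := by simp
      _ ≤ ‖Q (I, 0) - I • ((I, 0) : ℂ × ℂ)‖ := norm_fst_le _
      _ ≤ 1 / 10 * ‖((I, 0) : ℂ × ℂ)‖ := h2
      _ = 1 / 10 := by simp [Prod.norm_def]
  have e3 : be Q = (((Q (1, 0)).1 - I) + I * ((Q (I, 0)).1 + 1)) / 2 := by
    simp only [be]; ring
  rw [e3, norm_div]
  have e4 : ‖((Q (1, 0)).1 - I) + I * ((Q (I, 0)).1 + 1)‖ ≤ 1 / 10 + 1 / 10 := by
    refine (norm_add_le _ _).trans (add_le_add e1 ?_)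
    rw [norm_mul, Complex.norm_I, one_mul]
    exact e2
  have e5 : ‖(2 : ℂ)‖ = 2 := by simp
  rw [e5]
  linarith

theorem alI_norm (h : GoodQ Q) : 3 / 2 ≤ ‖al Q + I‖ := by
  have h1 := al_near h
  have h2 : ‖(2 * I : ℂ)‖ ≤ ‖al Q + I‖ + ‖al Q - I‖ := by
    have : (2 * I : ℂ) = (al Q + I) - (al Q - I) := by ring
    rw [this]
    exact norm_sub_le _ _
  have h3 : ‖(2 * I : ℂ)‖ = 2 := by simp
  linarith

theorem alI_ne (h : GoodQ Q) : al Q + I ≠ 0 := by
  intro h0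
  have := alI_norm h
  rw [h0, norm_zero] at this
  linarith

theorem mQ_norm (h : GoodQ Q) : ‖mQ Q‖ ≤ 1 / 2 := by
  have h1 := be_near h
  have h2 := alI_norm h
  rw [mQ, norm_div, div_le_iff₀ (by linarith)]
  linarith

/-- the relations of the coefficients -/
theorem rels (h : GoodQ Q) :
    al Q * be Q + be Q * (starRingEnd ℂ) (al Q) = 0 ∧
    al Q * al Q + be Q * (starRingEnd ℂ) (be Q) = -1 ∧
    ga Q * al Q + de Q * (starRingEnd ℂ) (be Q) + I * ga Q = 0 := by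
  have key : ∀ ζ : ℂ,
      al Q * (al Q * ζ + be Q * (starRingEnd ℂ) ζ) +
        be Q * (starRingEnd ℂ) (al Q * ζ + be Q * (starRingEnd ℂ) ζ) = -ζ ∧
      ga Q * (al Q * ζ + be Q * (starRingEnd ℂ) ζ) +
        de Q * (starRingEnd ℂ) (al Q * ζ + be Q * (starRingEnd ℂ) ζ) +
        I * (ga Q * ζ + de Q * (starRingEnd ℂ) ζ) = 0 := by
    intro ζ
    have h1 := h.sq (ζ, 0)
    rw [Q_split h ζ 0, Q_split h] at h1
    simp only [mul_zero, add_zero, Prod.neg_mk, neg_zero, Prod.mk.injEq] at h1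
    exact h1
  have k1 := key 1
  have kI := key I
  simp only [map_add, map_mul, map_one, map_neg, neg_neg, Complex.conj_I, mul_one] at k1 kI
  have hI : I * I = -1 := Complex.I_mul_I
  obtain ⟨a1, a2⟩ := k1
  obtain ⟨b1, b2⟩ := kI
  refine ⟨?_, ?_, ?_⟩
  · linear_combination (1 / 2) * a1 + (1 / 2) * I * b1
      + (-(1 / 2) * (al Q * al Q) + (1 / 2) * al Q * be Q + (1 / 2) * be Q * (starRingEnd ℂ) (al Q)
        - (1 / 2) * be Q * (starRingEnd ℂ) (be Q) - 1 / 2) * hI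
  · linear_combination (1 / 2) * a1 - (1 / 2) * I * b1
      + ((1 / 2) * (al Q * al Q) - (1 / 2) * al Q * be Q - (1 / 2) * be Q * (starRingEnd ℂ) (al Q)
        + (1 / 2) * be Q * (starRingEnd ℂ) (be Q) + 1 / 2) * hI
  · linear_combination (1 / 2) * a2 - (1 / 2) * I * b2
      + ((1 / 2) * (ga Q * al Q) - (1 / 2) * ga Q * be Q - (1 / 2) * de Q * (starRingEnd ℂ) (al Q)
        + (1 / 2) * de Q * (starRingEnd ℂ) (be Q) + (1 / 2) * I * ga Q - (1 / 2) * I * de Q) * hI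

theorem conj_al (h : GoodQ Q) : (starRingEnd ℂ) (al Q) = -al Q := by
  obtain ⟨r1, r2, -⟩ := rels h
  by_cases hb : be Q = 0
  · rw [hb] at r2
    have h1 : (al Q - I) * (al Q + I) = 0 := by
      have hI : I * I = -1 := Complex.I_mul_I
      linear_combination r2 - hI
    rcases mul_eq_zero.1 h1 with h2 | h2
    · rw [sub_eq_zero.1 h2]; simp
    · exact absurd h2 (alI_ne h)
  · have h1 : be Q * (al Q + (starRingEnd ℂ) (al Q)) = 0 := by linear_combination r1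
    have h2 := (mul_eq_zero.1 h1).resolve_left hb
    linear_combination h2

/-- the equation of a graph -/
theorem graph_iff (h : GoodQ Q) (a b : ℂ) :
    b = mQ Q * a + aQ Q ↔ ∀ ζ : ℂ, ∃ ξ : ℂ,
      Q (ζ, a * ζ + b * (starRingEnd ℂ) ζ) = (ξ, a * ξ + b * (starRingEnd ℂ) ξ) := by
  have hne := alI_ne h
  obtain ⟨r1, r2, r3⟩ := rels h
  have hc := conj_al h
  have hI : I * I = -1 := Complex.I_mul_I
  constructor
  · intro hb ζ
    refine ⟨al Q * ζ + be Q * (starRingEnd ℂ) ζ, ?_⟩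
    rw [Q_split h]
    refine Prod.ext rfl ?_
    simp only [map_add, map_mul, Complex.conj_conj, hc]
    have e1 : b * (al Q + I) = be Q * a - de Q := by
      rw [hb, mQ, aQ]
      field_simp
      ring
    have e2 : be Q * (starRingEnd ℂ) (be Q) = -((al Q + I) * (al Q - I)) := by
      linear_combination r2 - hI
    have e3 : de Q * (starRingEnd ℂ) (be Q) = -(ga Q * (al Q + I)) := by
      linear_combination r3
    have e4 : b * (starRingEnd ℂ) (be Q) = -(a * (al Q - I)) + ga Q := by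
      have : (al Q + I) * (b * (starRingEnd ℂ) (be Q)) =
          (al Q + I) * (-(a * (al Q - I)) + ga Q) := by
        linear_combination (starRingEnd ℂ) (be Q) * e1 + a * e2 - e3
      exact mul_left_cancel₀ hne this
    linear_combination (-(starRingEnd ℂ) ζ) * (-e1) - ζ * e4
  · intro hall
    -- the coefficient of the conjugate
    have hz : ∀ ζ : ℂ, ga Q * ζ + de Q * (starRingEnd ℂ) ζ + I * (a * ζ + b * (starRingEnd ℂ) ζ) =
        a * (al Q * ζ + be Q * (starRingEnd ℂ) ζ) +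
          b * (-(al Q) * (starRingEnd ℂ) ζ + (starRingEnd ℂ) (be Q) * ζ) := by
      intro ζ
      obtain ⟨ξ, hξ⟩ := hall ζ
      rw [Q_split h, Prod.mk.injEq] at hξ
      obtain ⟨h1, h2⟩ := hξ
      rw [h2, ← h1]
      simp only [map_add, map_mul, Complex.conj_conj, hc]
    have h1 := hz 1
    have h2 := hz I
    simp only [map_one, Complex.conj_I, mul_one] at h1 h2
    have h3 : b * (al Q + I) = be Q * a - de Q := by
      linear_combination (1 / 2) * h1 + (1 / 2) * I * h2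
        + ((1 / 2) * (b * al Q + b * I + b * (starRingEnd ℂ) (be Q) + al Q * a - I * a - a * be Q
          + de Q - ga Q)) * hI
    rw [mQ, aQ, div_mul_eq_mul_div, ← add_div, eq_div_iff hne, h3]
    ring

end Vale.Agent.P247.H329
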