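import Vale.Agent.P247.H574.Sta2
import Vale.Agent.P247.H74.K2H.Loc
import Vale.Agent.P247.H329.BX1

/-!
# P247, stage 2, package BX: boxes from local families of discs
-/

open scoped ContDiff Topology
open Set MeasureTheory Filter Metric

noncomputable section

namespace Vale.Agent.P247.H329

open Vale.Agent.P247.H74 Vale.Agent.P247.H574

/-! ## The affine model -/

/-- `w ↦ w a`, real linear -/
def cmL (D : Data) (x a : R4) : ℂ →L[ℝ] R4 :=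
  Complex.reCLM.smulRight a + Complex.imCLM.smulRight (D.J x a)

theorem cmL_apply (D : Data) (x a : R4) (w : ℂ) : cmL D x a w = cm D x w a := by
  simp [cmL, cm]

/-- the linear part of the model, `l` fixed -/
def AL (D : Data) (x₀ v h : R4) (ε : ℝ) (l : ℂ) : (ℂ × ℂ) →L[ℝ] R4 :=
  ε • ((cmL D x₀ h).comp (ContinuousLinearMap.fst ℝ ℂ ℂ) +
    (cmL D x₀ v).comp (ContinuousLinearMap.snd ℝ ℂ ℂ) +
    (cmL D x₀ h).comp ((ContinuousLinearMap.mul ℝ ℂ l).comp (ContinuousLinearMap.snd ℝ ℂ ℂ)))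

theorem AL_apply (D : Data) (x₀ v h : R4) (ε : ℝ) (l : ℂ) (w : ℂ × ℂ) :
    AL D x₀ v h ε l w = ε • (cm D x₀ w.1 h + cm D x₀ w.2 v + cm D x₀ (l * w.2) h) := by
  simp [AL, cmL_apply]

theorem lmod_eq (D : Data) (x₀ v h : R4) (ε : ℝ) (l : ℂ) (p : ℂ × ℂ) :
    lmod D x₀ v h ε (l, p) = x₀ + AL D x₀ v h ε l p := by
  rw [AL_apply, lmod]

theorem contDiff_lmod (D : Data) (x₀ v h : R4) (ε : ℝ) : ContDiff ℝ ∞ (lmod D x₀ v h ε) := by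
  have h1 : lmod D x₀ v h ε = fun q : ℂ × ℂ × ℂ =>
      x₀ + ε • (cmL D x₀ h q.2.1 + cmL D x₀ v q.2.2 + cmL D x₀ h (q.1 * q.2.2)) := by
    funext q
    simp [lmod, cmL_apply]
  rw [h1]
  fun_prop

theorem cm_add (D : Data) (x a : R4) (w w' : ℂ) : cm D x (w + w') a = cm D x w a + cm D x w' a := by
  rw [← cmL_apply, ← cmL_apply, ← cmL_apply, map_add]

theorem cm_I_mul (D : Data) (x a : R4) (w : ℂ) : cm D x (Complex.I * w) a = D.J x (cm D x w a) := by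
  simp only [cm, Complex.mul_re, Complex.mul_im, Complex.I_re, Complex.I_im, map_add, map_smul,
    D.J_sq]
  simp only [zero_mul, one_mul, zero_sub, zero_add, neg_smul, smul_neg]
  abel

theorem AL_I (D : Data) (x₀ v h : R4) (ε : ℝ) (l : ℂ) (w : ℂ × ℂ) :
    AL D x₀ v h ε l (Complex.I • w) = D.J x₀ (AL D x₀ v h ε l w) := by
  rw [AL_apply, AL_apply]
  simp only [Prod.smul_fst, Prod.smul_snd, smul_eq_mul, map_smul, map_add]
  rw [show l * (Complex.I * w.2) = Complex.I * (l * w.2) by ring, cm_I_mul, cm_I_mul, cm_I_mul]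

theorem norm_cm_le (D : Data) {B : ℝ} (hB1 : 1 ≤ B) (hB : ∀ x, ‖D.J x‖ ≤ B) (x a : R4) (w : ℂ) :
    ‖cm D x w a‖ ≤ 2 * B * ‖w‖ * ‖a‖ := by
  have h1 : ‖w.re • a‖ ≤ ‖w‖ * ‖a‖ := by
    rw [norm_smul]
    exact mul_le_mul_of_nonneg_right (Complex.abs_re_le_norm w) (norm_nonneg _)
  have h2 : ‖w.im • D.J x a‖ ≤ ‖w‖ * (B * ‖a‖) := by
    rw [norm_smul]
    refine mul_le_mul (Complex.abs_im_le_norm w) ?_ (norm_nonneg _) (norm_nonneg _)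
    exact (ContinuousLinearMap.le_opNorm _ _).trans
      (mul_le_mul_of_nonneg_right (hB x) (norm_nonneg _))
  have h3 : ‖cm D x w a‖ ≤ ‖w‖ * ‖a‖ + ‖w‖ * (B * ‖a‖) := (norm_add_le _ _).trans (add_le_add h1 h2)
  have h4 : 0 ≤ ‖w‖ * ‖a‖ := by positivity
  nlinarith

theorem norm_AL_le (D : Data) {B K : ℝ} (hB1 : 1 ≤ B) (hB : ∀ x, ‖D.J x‖ ≤ B) {x₀ v h : R4}
    {ε : ℝ} (hε : 0 < ε) (hv : ‖v‖ ≤ K) (hh : ‖h‖ ≤ K) {l : ℂ} (hl : ‖l‖ ≤ 2) (w : ℂ × ℂ) :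
    ‖AL D x₀ v h ε l w‖ ≤ 8 * B * K * ε * ‖w‖ := by
  rw [AL_apply, norm_smul, Real.norm_of_nonneg hε.le]
  have hK : 0 ≤ K := (norm_nonneg _).trans hv
  have w1 : ‖w.1‖ ≤ ‖w‖ := norm_fst_le w
  have w2 : ‖w.2‖ ≤ ‖w‖ := norm_snd_le w
  have hB0 : (0 : ℝ) ≤ B := by linarith
  have h1 : ‖cm D x₀ w.1 h‖ ≤ 2 * B * ‖w‖ * K := by
    refine (norm_cm_le D hB1 hB _ _ _).trans ?_
    gcongr
  have h2 : ‖cm D x₀ w.2 v‖ ≤ 2 * B * ‖w‖ * K := by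
    refine (norm_cm_le D hB1 hB _ _ _).trans ?_
    gcongr
  have h3 : ‖cm D x₀ (l * w.2) h‖ ≤ 2 * B * (2 * ‖w‖) * K := by
    refine (norm_cm_le D hB1 hB _ _ _).trans ?_
    rw [norm_mul]
    gcongr
  have h4 : ‖cm D x₀ w.1 h + cm D x₀ w.2 v + cm D x₀ (l * w.2) h‖ ≤ 8 * B * K * ‖w‖ := by
    refine (norm_add₃_le).trans ?_
    linarith
  calc ε * ‖cm D x₀ w.1 h + cm D x₀ w.2 v + cm D x₀ (l * w.2) h‖ ≤ ε * (8 * B * K * ‖w‖) :=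
        mul_le_mul_of_nonneg_left h4 hε.le
    _ = 8 * B * K * ε * ‖w‖ := by ring

theorem le_norm_AL (D : Data) {K : ℝ} {x₀ v h : R4} {ε : ℝ} (hε : 0 < ε)
    (hvh : ∀ a b : ℂ, ‖a‖ + ‖b‖ ≤ K * ‖cm D x₀ a v + cm D x₀ b h‖) {l : ℂ} (hl : ‖l‖ ≤ 2)
    (w : ℂ × ℂ) : ε * ‖w‖ ≤ 2 * K * ‖AL D x₀ v h ε l w‖ := by
  have h1 := hvh w.2 (w.1 + l * w.2)
  have h2 : AL D x₀ v h ε l w = ε • (cm D x₀ w.2 v + cm D x₀ (w.1 + l * w.2) h) := by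
    rw [AL_apply, cm_add]
    congr 1
    abel
  rw [h2, norm_smul, Real.norm_of_nonneg hε.le]
  have h3 : ‖w.1‖ ≤ ‖w.1 + l * w.2‖ + 2 * ‖w.2‖ := by
    have e1 : w.1 = (w.1 + l * w.2) - l * w.2 := by ring
    calc ‖w.1‖ = ‖(w.1 + l * w.2) - l * w.2‖ := by rw [← e1]
      _ ≤ ‖w.1 + l * w.2‖ + ‖l * w.2‖ := norm_sub_le _ _
      _ ≤ ‖w.1 + l * w.2‖ + 2 * ‖w.2‖ := by
        rw [norm_mul]
        gcongr
  have h4 : ‖w‖ ≤ 2 * (‖w.2‖ + ‖w.1 + l * w.2‖) := by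
    rw [Prod.norm_def]
    have := norm_nonneg w.2
    have := norm_nonneg (w.1 + l * w.2)
    exact max_le (by linarith) (by linarith)
  calc ε * ‖w‖ ≤ ε * (2 * (K * ‖cm D x₀ w.2 v + cm D x₀ (w.1 + l * w.2) h‖)) := by
        gcongr
        linarith
    _ = 2 * K * (ε * ‖cm D x₀ w.2 v + cm D x₀ (w.1 + l * w.2) h‖) := by ring

/-! ## Linear isomorphisms -/

theorem bij_of_lb (L : (ℂ × ℂ) →L[ℝ] R4) {c C : ℝ} (hc : 0 < c) (hL : ∀ w, c * ‖w‖ ≤ C * ‖L w‖) :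
    Function.Bijective L := by
  have hinj : Function.Injective L := by
    rw [injective_iff_map_eq_zero]
    intro w hw
    have h1 := hL w
    rw [hw, norm_zero, mul_zero] at h1
    have h2 : ‖w‖ ≤ 0 := by
      by_contra hcon
      push Not at hcon
      have : 0 < c * ‖w‖ := mul_pos hc hcon
      linarith
    exact norm_le_zero_iff.1 h2
  have hfin : Module.finrank ℝ (ℂ × ℂ) = Module.finrank ℝ R4 := by
    rw [Module.finrank_prod, Complex.finrank_real_complex, Module.finrank_fin_fun]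
  exact ⟨hinj, (LinearMap.injective_iff_surjective_of_finrank_eq_finrank
    (f := (L : (ℂ × ℂ) →ₗ[ℝ] R4)) hfin).1 hinj⟩

/-- the isomorphism -/
def eqv (L : (ℂ × ℂ) →L[ℝ] R4) (hb : Function.Bijective L) : (ℂ × ℂ) ≃L[ℝ] R4 :=
  (LinearEquiv.ofBijective (L : (ℂ × ℂ) →ₗ[ℝ] R4) hb).toContinuousLinearEquiv

theorem eqv_coe (L : (ℂ × ℂ) →L[ℝ] R4) (hb : Function.Bijective L) :
    (eqv L hb : (ℂ × ℂ) →L[ℝ] R4) = L := by
  ext w <;> rfl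

theorem eqv_apply (L : (ℂ × ℂ) →L[ℝ] R4) (hb : Function.Bijective L) (w : ℂ × ℂ) :
    eqv L hb w = L w := rfl

/-- the almost complex structure in the coordinates of the box -/
def QQ (D : Data) (Θ : ℂ × ℂ → R4) (p : ℂ × ℂ) : EC :=
  (fderiv ℝ Θ p).inverse.comp ((D.J (Θ p)).comp (fderiv ℝ Θ p))

theorem QQ_spec {D : Data} {Θ : ℂ × ℂ → R4} {p : ℂ × ℂ}
    (hb : Function.Bijective (fderiv ℝ Θ p)) (w : ℂ × ℂ) :
    fderiv ℝ Θ p (QQ D Θ p w) = D.J (Θ p) (fderiv ℝ Θ p w) := by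
  have h1 : (fderiv ℝ Θ p).inverse = ((eqv _ hb).symm : R4 →L[ℝ] (ℂ × ℂ)) := by
    conv_lhs => rw [← eqv_coe _ hb]
    exact ContinuousLinearMap.inverse_equiv _
  rw [QQ, h1]
  simp only [ContinuousLinearMap.comp_apply, ContinuousLinearEquiv.coe_coe]
  exact (eqv _ hb).apply_symm_apply _

theorem QQ_contDiffOn {D : Data} {Θ : ℂ × ℂ → R4} {s : Set (ℂ × ℂ)} (hs : IsOpen s)
    (hΘ : ContDiffOn ℝ ∞ Θ s) (hb : ∀ p ∈ s, Function.Bijective (fderiv ℝ Θ p)) :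
    ContDiffOn ℝ ∞ (QQ D Θ) s := by
  intro p hp
  have h0 : ContDiffAt ℝ ∞ Θ p := hΘ.contDiffAt (hs.mem_nhds hp)
  have h1 : ContDiffAt ℝ ∞ (fderiv ℝ Θ) p := h0.fderiv_right (by simp)
  have h2 : ContDiffAt ℝ ∞ (fun q => (fderiv ℝ Θ q).inverse) p := by
    have h3 := contDiffAt_map_inverse (𝕜 := ℝ) (n := ∞) (eqv _ (hb p hp))
    rw [eqv_coe] at h3
    exact h3.comp p h1
  have h4 : ContDiffAt ℝ ∞ (fun q => D.J (Θ q)) p := D.J_smooth.contDiffAt.comp p h0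
  exact (h2.clm_comp (h4.clm_comp h1)).contDiffWithinAt

end Vale.Agent.P247.H329
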