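import Vale.Agent.P247.H329.BX2

/-!
# P247, stage 2, package BX: the box
-/

open scoped ContDiff Topology
open Set MeasureTheory Filter Metric

noncomputable section

namespace Vale.Agent.P247.H329

open Vale.Agent.P247.H74 Vale.Agent.P247.H574

/-- the hypotheses on one chart -/
structure Near (D : Data) (δ ε : ℝ) (x₀ v h : R4) (l : ℂ) (Θ : ℂ × ℂ → R4) : Prop where
  sm : ContDiffOn ℝ ∞ Θ (PD 2)
  hol : ∀ p ∈ PD 2, fderiv ℝ Θ p (0, Complex.I) = D.J (Θ p) (fderiv ℝ Θ p (0, 1))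
  cl : ∀ p ∈ PD 2, ‖fderiv ℝ Θ p - AL D x₀ v h ε l‖ ≤ ε * δ
  zero : Θ 0 = x₀

/-- the constants -/
structure Cst (D : Data) (B K δ ε : ℝ) (x₀ v h : R4) (l : ℂ) : Prop where
  hB1 : 1 ≤ B
  hB : ∀ x, ‖D.J x‖ ≤ B ∧ ‖fderiv ℝ D.J x‖ ≤ B
  hK : 0 < K
  hε : 0 < ε
  hδ : 0 < δ
  hv : ‖v‖ ≤ K
  hh : ‖h‖ ≤ K
  hvh : ∀ a b : ℂ, ‖a‖ + ‖b‖ ≤ K * ‖cm D x₀ a v + cm D x₀ b h‖
  hl : ‖l‖ ≤ 2
  d1 : δ ≤ 1
  d2 : 4 * K * δ ≤ 1
  d3 : 4 * K * (2 * B * (8 * B * K + 1) ^ 2 * ε + (B + 1) * δ) ≤ 1 / 10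
  d4 : 4 * (8 * B * K + 1) * ε < 1

theorem isOpen_PD (r : ℝ) : IsOpen (PD r) := isOpen_ball.prod isOpen_ball
theorem convex_PD (r : ℝ) : Convex ℝ (PD r) := (convex_ball _ _).prod (convex_ball _ _)

theorem norm_J_sub (D : Data) {B : ℝ} (hB : ∀ x, ‖D.J x‖ ≤ B ∧ ‖fderiv ℝ D.J x‖ ≤ B) (x y : R4) :
    ‖D.J x - D.J y‖ ≤ B * ‖x - y‖ :=
  Convex.norm_image_sub_le_of_norm_fderiv_le (𝕜 := ℝ) (s := univ)
    (fun z _ => (D.J_smooth.differentiable (by simp)) z) (fun z _ => (hB z).2) convex_univ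
    (mem_univ _) (mem_univ _)

section

variable {D : Data} {B K δ ε : ℝ} {x₀ v h : R4} {l : ℂ} {Θ : ℂ × ℂ → R4}

theorem Near.diffAt (H : Near D δ ε x₀ v h l Θ) {p : ℂ × ℂ} (hp : p ∈ PD 2) :
    DifferentiableAt ℝ Θ p :=
  (H.sm.contDiffAt ((isOpen_PD 2).mem_nhds hp)).differentiableAt (by simp)

theorem Near.sub (H : Near D δ ε x₀ v h l Θ) {p q : ℂ × ℂ} (hp : p ∈ PD 2) (hq : q ∈ PD 2) :
    ‖Θ p - Θ q - AL D x₀ v h ε l (p - q)‖ ≤ ε * δ * ‖p - q‖ :=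
  Convex.norm_image_sub_le_of_norm_fderiv_le' (𝕜 := ℝ) (fun _ hz => H.diffAt hz) H.cl
    (convex_PD 2) hq hp

theorem lb_gen (C : Cst D B K δ ε x₀ v h l) {a : R4} {u : ℂ × ℂ}
    (h1 : ‖a - AL D x₀ v h ε l u‖ ≤ ε * δ * ‖u‖) : ε * ‖u‖ ≤ 4 * K * ‖a‖ := by
  have h2 := le_norm_AL D C.hε C.hvh C.hl u
  have h3 : ‖AL D x₀ v h ε l u‖ ≤ ‖a‖ + ‖a - AL D x₀ v h ε l u‖ := by
    have : AL D x₀ v h ε l u = a - (a - AL D x₀ v h ε l u) := by abel
    calc ‖AL D x₀ v h ε l u‖ = ‖a - (a - AL D x₀ v h ε l u)‖ := by rw [← this]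
      _ ≤ _ := norm_sub_le _ _
  have h4 : 2 * K * (ε * δ * ‖u‖) ≤ (1 / 2) * (ε * ‖u‖) := by
    have h5 : 0 ≤ ε * ‖u‖ := mul_nonneg C.hε.le (norm_nonneg _)
    have := mul_le_mul_of_nonneg_right C.d2 h5
    nlinarith
  have h6 : 2 * K * ‖AL D x₀ v h ε l u‖ ≤ 2 * K * (‖a‖ + ε * δ * ‖u‖) :=
    mul_le_mul_of_nonneg_left (h3.trans (by linarith)) (by linarith [C.hK])
  linarith

theorem ub_gen (C : Cst D B K δ ε x₀ v h l) {a : R4} {u : ℂ × ℂ}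
    (h1 : ‖a - AL D x₀ v h ε l u‖ ≤ ε * δ * ‖u‖) : ‖a‖ ≤ (8 * B * K + 1) * ε * ‖u‖ := by
  have h2 := norm_AL_le (x₀ := x₀) D C.hB1 (fun x => (C.hB x).1) C.hε C.hv C.hh C.hl u
  have h3 : ‖a‖ ≤ ‖a - AL D x₀ v h ε l u‖ + ‖AL D x₀ v h ε l u‖ := by
    have : a = (a - AL D x₀ v h ε l u) + AL D x₀ v h ε l u := by abel
    calc ‖a‖ = ‖(a - AL D x₀ v h ε l u) + AL D x₀ v h ε l u‖ := by rw [← this]
      _ ≤ _ := norm_add_le _ _
  have h5 : 0 ≤ ε * ‖u‖ := mul_nonneg C.hε.le (norm_nonneg _)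
  have h6 := mul_le_mul_of_nonneg_right C.d1 h5
  nlinarith

theorem Near.fd (H : Near D δ ε x₀ v h l Θ) {p : ℂ × ℂ} (hp : p ∈ PD 2) (u : ℂ × ℂ) :
    ‖fderiv ℝ Θ p u - AL D x₀ v h ε l u‖ ≤ ε * δ * ‖u‖ :=
  (ContinuousLinearMap.le_opNorm (fderiv ℝ Θ p - AL D x₀ v h ε l) u).trans
    (mul_le_mul_of_nonneg_right (H.cl p hp) (norm_nonneg _))

theorem Near.lb (H : Near D δ ε x₀ v h l Θ) (C : Cst D B K δ ε x₀ v h l) {p q : ℂ × ℂ}
    (hp : p ∈ PD 2) (hq : q ∈ PD 2) : ε * ‖p - q‖ ≤ 4 * K * ‖Θ p - Θ q‖ :=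
  lb_gen C (H.sub hp hq)

theorem Near.ub (H : Near D δ ε x₀ v h l Θ) (C : Cst D B K δ ε x₀ v h l) {p q : ℂ × ℂ}
    (hp : p ∈ PD 2) (hq : q ∈ PD 2) : ‖Θ p - Θ q‖ ≤ (8 * B * K + 1) * ε * ‖p - q‖ :=
  ub_gen C (H.sub hp hq)

theorem Near.flb (H : Near D δ ε x₀ v h l Θ) (C : Cst D B K δ ε x₀ v h l) {p : ℂ × ℂ}
    (hp : p ∈ PD 2) (u : ℂ × ℂ) : ε * ‖u‖ ≤ 4 * K * ‖fderiv ℝ Θ p u‖ :=
  lb_gen C (H.fd hp u)

theorem Near.fub (H : Near D δ ε x₀ v h l Θ) (C : Cst D B K δ ε x₀ v h l) {p : ℂ × ℂ}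
    (hp : p ∈ PD 2) (u : ℂ × ℂ) : ‖fderiv ℝ Θ p u‖ ≤ (8 * B * K + 1) * ε * ‖u‖ :=
  ub_gen C (H.fd hp u)

theorem Near.bij (H : Near D δ ε x₀ v h l Θ) (C : Cst D B K δ ε x₀ v h l) {p : ℂ × ℂ}
    (hp : p ∈ PD 2) : Function.Bijective (fderiv ℝ Θ p) :=
  bij_of_lb _ C.hε (H.flb C hp)

theorem zero_mem_PD : (0 : ℂ × ℂ) ∈ PD 2 := by
  constructor <;> simp

theorem norm_lt_of_mem {p : ℂ × ℂ} (hp : p ∈ PD 2) : ‖p‖ < 2 := by
  rw [Prod.norm_def]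
  exact max_lt (mem_ball_zero_iff.1 hp.1) (mem_ball_zero_iff.1 hp.2)

theorem Near.goodQ (H : Near D δ ε x₀ v h l Θ) (C : Cst D B K δ ε x₀ v h l) {p : ℂ × ℂ}
    (hp : p ∈ PD 2) : GoodQ (QQ D Θ p) := by
  have hb := H.bij C hp
  have hK := C.hK
  have hε := C.hε
  have hB1 := C.hB1
  refine ⟨fun w => hb.1 ?_, hb.1 ?_, fun w => ?_⟩
  · rw [QQ_spec hb, QQ_spec hb, D.J_sq, map_neg]
  · rw [QQ_spec hb, H.hol p hp]
  · have h1 := H.flb C hp (QQ D Θ p w - Complex.I • w)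
    rw [map_sub, QQ_spec hb] at h1
    set L := fderiv ℝ Θ p with hL
    set A := AL D x₀ v h ε l with hA
    have e1 : D.J (Θ p) (L w) - L (Complex.I • w) =
        (D.J (Θ p) - D.J x₀) (L w) + D.J x₀ (L w - A w) -
          (L (Complex.I • w) - A (Complex.I • w)) := by
      have : A (Complex.I • w) = D.J x₀ (A w) := AL_I D x₀ v h ε l w
      rw [this]
      simp only [_root_.sub_apply, map_sub]
      abel
    have n1 : ‖(D.J (Θ p) - D.J x₀) (L w)‖ ≤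
        (B * ((8 * B * K + 1) * ε * 2)) * ((8 * B * K + 1) * ε * ‖w‖) := by
      have hB0 : 0 ≤ B := by linarith
      refine (ContinuousLinearMap.le_opNorm _ _).trans ?_
      have m1 : ‖D.J (Θ p) - D.J x₀‖ ≤ B * ((8 * B * K + 1) * ε * 2) := by
        refine (norm_J_sub D C.hB _ _).trans (mul_le_mul_of_nonneg_left ?_ hB0)
        rw [← H.zero]
        refine (H.ub C hp zero_mem_PD).trans ?_
        rw [sub_zero]
        exact mul_le_mul_of_nonneg_left (norm_lt_of_mem hp).le (by positivity)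
      exact mul_le_mul m1 (H.fub C hp w) (norm_nonneg _) (by positivity)
    have n2 : ‖D.J x₀ (L w - A w)‖ ≤ B * (ε * δ * ‖w‖) := by
      refine (ContinuousLinearMap.le_opNorm _ _).trans ?_
      exact mul_le_mul (C.hB x₀).1 (H.fd hp w) (norm_nonneg _) (by linarith)
    have n3 : ‖L (Complex.I • w) - A (Complex.I • w)‖ ≤ ε * δ * ‖w‖ := by
      have := H.fd hp (Complex.I • w)
      rwa [norm_smul, Complex.norm_I, one_mul] at this
    have n4 : ‖D.J (Θ p) (L w) - L (Complex.I • w)‖ ≤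
        ε * ((2 * B * (8 * B * K + 1) ^ 2 * ε + (B + 1) * δ) * ‖w‖) := by
      rw [e1]
      refine (norm_sub_le _ _).trans ?_
      refine (add_le_add (norm_add_le _ _) le_rfl).trans ?_
      refine (add_le_add (add_le_add n1 n2) n3).trans (le_of_eq ?_)
      ring
    have h2 : ε * ‖QQ D Θ p w - Complex.I • w‖ ≤ ε * (1 / 10 * ‖w‖) := by
      refine h1.trans ?_
      refine (mul_le_mul_of_nonneg_left n4 (by linarith)).trans ?_
      have := mul_le_mul_of_nonneg_right C.d3 (norm_nonneg w)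
      calc 4 * K * (ε * ((2 * B * (8 * B * K + 1) ^ 2 * ε + (B + 1) * δ) * ‖w‖))
          = ε * (4 * K * (2 * B * (8 * B * K + 1) ^ 2 * ε + (B + 1) * δ) * ‖w‖) := by ring
        _ ≤ ε * (1 / 10 * ‖w‖) := mul_le_mul_of_nonneg_left this hε.le
    exact le_of_mul_le_mul_left h2 hε

/-- the box -/
def mkBox (H : Near D δ ε x₀ v h l Θ) (C : Cst D B K δ ε x₀ v h l) : Box D where
  Θ := Θ
  smooth := H.sm
  inj := by
    intro p hp q hq k hk
    have h1 : ‖Θ p - Θ q‖ < 1 := by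
      refine (H.ub C hp hq).trans_lt ?_
      have h2 : ‖p - q‖ ≤ 4 := by
        refine (norm_sub_le _ _).trans ?_
        have := norm_lt_of_mem hp
        have := norm_lt_of_mem hq
        linarith
      have h3 : 0 ≤ (8 * B * K + 1) * ε := by
        have := C.hK
        have := C.hε
        have := C.hB1
        positivity
      have h4 := mul_le_mul_of_nonneg_left h2 h3
      have h5 := C.d4
      linarith
    have hk0 : k = 0 := by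
      funext i
      have h2 : (Θ p - Θ q) i = k i := by
        rw [hk]
        simp [tr]
      have h3 : ‖(Θ p - Θ q) i‖ < 1 := (norm_le_pi_norm _ i).trans_lt h1
      rw [h2] at h3
      have h4 : |(k i : ℝ)| < 1 := h3
      have h5 : |k i| < 1 := by exact_mod_cast h4
      simpa using Int.abs_lt_one_iff.1 h5
    refine ⟨?_, hk0⟩
    have h2 : Θ p = Θ q := by
      rw [hk, hk0]
      funext i
      simp [tr]
    have h3 := H.lb C hp hq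
    rw [h2, sub_self, norm_zero, mul_zero] at h3
    have h4 : ‖p - q‖ ≤ 0 := by
      by_contra hcon
      push Not at hcon
      have := mul_pos C.hε hcon
      linarith
    exact sub_eq_zero.1 (norm_le_zero_iff.1 h4)
  imm p hp := H.bij C hp
  hol := H.hol
  m p := mQ (QQ D Θ p)
  A p := aQ (QQ D Θ p)
  m_smooth := by
    have hQ := QQ_contDiffOn (D := D) (isOpen_PD 2) H.sm (fun p hp => H.bij C hp)
    have h1 : ContDiffOn ℝ ∞ (fun p => (QQ D Θ p (1, 0)).1) (PD 2) :=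
      contDiff_fst.comp_contDiffOn (hQ.clm_apply contDiffOn_const)
    have h2 : ContDiffOn ℝ ∞ (fun p => (QQ D Θ p (Complex.I, 0)).1) (PD 2) :=
      contDiff_fst.comp_contDiffOn (hQ.clm_apply contDiffOn_const)
    have h3 : ContDiffOn ℝ ∞ (fun p => be (QQ D Θ p)) (PD 2) :=
      (h1.add (contDiffOn_const.mul h2)).div_const 2
    have h4 : ContDiffOn ℝ ∞ (fun p => al (QQ D Θ p) + Complex.I) (PD 2) :=
      ((h1.sub (contDiffOn_const.mul h2)).div_const 2).add contDiffOn_const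
    exact (h3.mul (h4.inv fun p hp => alI_ne (H.goodQ C hp))).congr fun p _ => div_eq_mul_inv _ _
  A_smooth := by
    have hQ := QQ_contDiffOn (D := D) (isOpen_PD 2) H.sm (fun p hp => H.bij C hp)
    have h1 : ContDiffOn ℝ ∞ (fun p => (QQ D Θ p (1, 0)).1) (PD 2) :=
      contDiff_fst.comp_contDiffOn (hQ.clm_apply contDiffOn_const)
    have h2 : ContDiffOn ℝ ∞ (fun p => (QQ D Θ p (Complex.I, 0)).1) (PD 2) :=
      contDiff_fst.comp_contDiffOn (hQ.clm_apply contDiffOn_const)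
    have h1' : ContDiffOn ℝ ∞ (fun p => (QQ D Θ p (1, 0)).2) (PD 2) :=
      contDiff_snd.comp_contDiffOn (hQ.clm_apply contDiffOn_const)
    have h2' : ContDiffOn ℝ ∞ (fun p => (QQ D Θ p (Complex.I, 0)).2) (PD 2) :=
      contDiff_snd.comp_contDiffOn (hQ.clm_apply contDiffOn_const)
    have h3 : ContDiffOn ℝ ∞ (fun p => -de (QQ D Θ p)) (PD 2) :=
      ((h1'.add (contDiffOn_const.mul h2')).div_const 2).neg
    have h4 : ContDiffOn ℝ ∞ (fun p => al (QQ D Θ p) + Complex.I) (PD 2) :=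
      ((h1.sub (contDiffOn_const.mul h2)).div_const 2).add contDiffOn_const
    exact (h3.mul (h4.inv fun p hp => alI_ne (H.goodQ C hp))).congr fun p _ => div_eq_mul_inv _ _
  m_lt p hp := (mQ_norm (H.goodQ C hp)).trans_lt (by norm_num)
  graph := by
    intro p hp a b
    rw [graph_iff (H.goodQ C hp)]
    have hb := H.bij C hp
    constructor
    · intro h1 ζ
      obtain ⟨ξ, hξ⟩ := h1 ζ
      exact ⟨ξ, by rw [← QQ_spec hb, hξ]⟩
    · intro h1 ζ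
      obtain ⟨ξ, hξ⟩ := h1 ζ
      refine ⟨ξ, hb.1 ?_⟩
      rw [QQ_spec hb, hξ]

end

end Vale.Agent.P247.H329
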