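import Vale.Agent.P247.H329.BX3

/-!
# P247, stage 2, package BX: `BX_statement` from `JD_statement`
-/

open scoped ContDiff Topology
open Set MeasureTheory Filter Metric

noncomputable section

namespace Vale.Agent.P247.H329

open Vale.Agent.P247.H74 Vale.Agent.P247.H574

/-- the open polydisc in `ℂ³` -/
def P3 : Set (ℂ × ℂ × ℂ) := ball (0 : ℂ) 2 ×ˢ ball (0 : ℂ) 2 ×ˢ ball (0 : ℂ) 2

theorem isOpen_P3 : IsOpen P3 := isOpen_ball.prod (isOpen_ball.prod isOpen_ball)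
theorem convex_P3 : Convex ℝ P3 := (convex_ball _ _).prod ((convex_ball _ _).prod (convex_ball _ _))

theorem mem_P3 {l : ℂ} {p : ℂ × ℂ} (hl : l ∈ ball (0 : ℂ) 2) (hp : p ∈ PD 2) : (l, p) ∈ P3 :=
  mk_mem_prod hl hp

theorem fderiv_slice {f : ℂ × ℂ × ℂ → R4} {l : ℂ} {p : ℂ × ℂ}
    (hf : DifferentiableAt ℝ f (l, p)) (u : ℂ × ℂ) :
    fderiv ℝ (fun q : ℂ × ℂ => f (l, q)) p u = fderiv ℝ f (l, p) (0, u) := by
  have h1 : HasFDerivAt (fun q : ℂ × ℂ => (l, q)) (ContinuousLinearMap.inr ℝ ℂ (ℂ × ℂ)) p :=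
    hasFDerivAt_prodMk_right l p
  have h2 := hf.hasFDerivAt.comp p h1
  rw [show (fun q : ℂ × ℂ => f (l, q)) = f ∘ (fun q : ℂ × ℂ => (l, q)) from rfl, h2.fderiv]
  simp

theorem fderiv_lmod (D : Data) (x₀ v h : R4) (ε : ℝ) (l : ℂ) (p u : ℂ × ℂ) :
    fderiv ℝ (lmod D x₀ v h ε) (l, p) (0, u) = AL D x₀ v h ε l u := by
  rw [← fderiv_slice ((contDiff_lmod D x₀ v h ε).differentiable (by simp) _)]
  have h1 : (fun q : ℂ × ℂ => lmod D x₀ v h ε (l, q)) = fun q => x₀ + AL D x₀ v h ε l q := by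
    funext q
    exact lmod_eq D x₀ v h ε l q
  rw [h1, fderiv_const_add, ContinuousLinearMap.fderiv]

section

variable {D : Data} {B K δ ε : ℝ} {x₀ v h : R4} {Ξ : ℂ × ℂ × ℂ → R4}

theorem near_of (hδ : 0 < δ) (hε : 0 < ε) (hsm : ContDiffOn ℝ ∞ Ξ P3)
    (hol : ∀ q ∈ P3, fderiv ℝ Ξ q (0, 0, Complex.I) = D.J (Ξ q) (fderiv ℝ Ξ q (0, 0, 1)))
    (hc : ∀ q ∈ P3, ‖fderiv ℝ Ξ q - fderiv ℝ (lmod D x₀ v h ε) q‖ ≤ ε * δ)
    (h0 : ∀ l ∈ ball (0 : ℂ) 2, Ξ (l, 0, 0) = x₀) {l : ℂ} (hl : l ∈ ball (0 : ℂ) 2) :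
    Near D δ ε x₀ v h l (fun p => Ξ (l, p)) := by
  have hd : ∀ p ∈ PD 2, DifferentiableAt ℝ Ξ (l, p) := fun p hp =>
    (hsm.contDiffAt (isOpen_P3.mem_nhds (mem_P3 hl hp))).differentiableAt (by simp)
  refine ⟨?_, fun p hp => ?_, fun p hp => ?_, h0 l hl⟩
  · have hm : MapsTo (fun p : ℂ × ℂ => (l, p)) (PD 2) P3 := fun p hp => mem_P3 hl hp
    exact hsm.comp (contDiff_prodMk_right l).contDiffOn hm
  · rw [fderiv_slice (hd p hp), fderiv_slice (hd p hp)]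
    exact hol (l, p) (mem_P3 hl hp)
  · refine ContinuousLinearMap.opNorm_le_bound _ (by positivity) fun u => ?_
    rw [_root_.sub_apply, fderiv_slice (hd p hp), ← fderiv_lmod D x₀ v h ε l p u,
      ← _root_.sub_apply]
    refine (ContinuousLinearMap.le_opNorm _ _).trans ?_
    refine mul_le_mul (hc _ (mem_P3 hl hp)) ?_ (norm_nonneg _) (by positivity)
    rw [Prod.norm_def]
    simp

/-- the pencil estimate for the remainder -/
theorem rem_l (hδ : 0 < δ) (hε : 0 < ε) (hsm : ContDiffOn ℝ ∞ Ξ P3)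
    (hc2 : ∀ q ∈ P3, ‖fderiv ℝ (fderiv ℝ Ξ) q - fderiv ℝ (fderiv ℝ (lmod D x₀ v h ε)) q‖ ≤ ε * δ)
    (h0 : ∀ l ∈ ball (0 : ℂ) 2, Ξ (l, 0, 0) = x₀) {l l' y : ℂ} (hl : l ∈ ball (0 : ℂ) 2)
    (hl' : l' ∈ ball (0 : ℂ) 2) (hy : y ∈ ball (0 : ℂ) 2) :
    ‖(Ξ (l, 0, y) - lmod D x₀ v h ε (l, 0, y)) - (Ξ (l', 0, y) - lmod D x₀ v h ε (l', 0, y))‖ ≤
      ε * δ * ‖y‖ * ‖l - l'‖ := by
  set R : ℂ × ℂ × ℂ → R4 := fun q => Ξ q - lmod D x₀ v h ε q with hR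
  have hRs : ContDiffOn ℝ ∞ R P3 := hsm.sub (contDiff_lmod D x₀ v h ε).contDiffOn
  have z0 : (0 : ℂ) ∈ ball (0 : ℂ) 2 := by simp
  have hRa : ∀ q ∈ P3, ContDiffAt ℝ ∞ R q := fun q hq => hRs.contDiffAt (isOpen_P3.mem_nhds hq)
  have hRd : ∀ q ∈ P3, DifferentiableAt ℝ R q := fun q hq => (hRa q hq).differentiableAt (by simp)
  have hRdd : ∀ q ∈ P3, DifferentiableAt ℝ (fderiv ℝ R) q := fun q hq =>
    ((hRa q hq).fderiv_right (m := ∞) (by simp)).differentiableAt (by simp)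
  have hfR : ∀ q ∈ P3, fderiv ℝ R q = fderiv ℝ Ξ q - fderiv ℝ (lmod D x₀ v h ε) q := by
    intro q hq
    exact fderiv_sub ((hsm.contDiffAt (isOpen_P3.mem_nhds hq)).differentiableAt (by simp))
      ((contDiff_lmod D x₀ v h ε).differentiable (by simp) q)
  have hffR : ∀ q ∈ P3, ‖fderiv ℝ (fderiv ℝ R) q‖ ≤ ε * δ := by
    intro q hq
    have h1 : fderiv ℝ R =ᶠ[𝓝 q] fun q => fderiv ℝ Ξ q - fderiv ℝ (lmod D x₀ v h ε) q := by
      filter_upwards [isOpen_P3.mem_nhds hq] with q' hq' using hfR q' hq'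
    rw [h1.fderiv_eq]
    have h2 : fderiv ℝ (fun q => fderiv ℝ Ξ q - fderiv ℝ (lmod D x₀ v h ε) q) q =
        fderiv ℝ (fderiv ℝ Ξ) q - fderiv ℝ (fderiv ℝ (lmod D x₀ v h ε)) q := by
      refine fderiv_sub ?_ ?_
      · exact ((hsm.contDiffAt (isOpen_P3.mem_nhds hq)).fderiv_right (m := ∞)
          (by simp)).differentiableAt (by simp)
      · exact ((contDiff_lmod D x₀ v h ε).contDiffAt.fderiv_right (m := ∞)
          (by simp)).differentiableAt (by simp)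
    rw [h2]
    exact hc2 q hq
  -- slices in `l`
  have hsl : ∀ w ∈ ball (0 : ℂ) 2, ∀ m ∈ ball (0 : ℂ) 2,
      HasFDerivAt (fun t : ℂ => R (t, 0, w))
        ((fderiv ℝ R (m, 0, w)).comp (ContinuousLinearMap.inl ℝ ℂ (ℂ × ℂ))) m := by
    intro w hw m hm
    have h1 : HasFDerivAt (fun t : ℂ => (t, ((0 : ℂ), w))) (ContinuousLinearMap.inl ℝ ℂ (ℂ × ℂ)) m :=
      hasFDerivAt_prodMk_left m ((0 : ℂ), w)
    exact (hRd (m, 0, w) ⟨hm, z0, hw⟩).hasFDerivAt.comp m h1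
  have hz : ∀ m ∈ ball (0 : ℂ) 2,
      (fderiv ℝ R (m, 0, 0)).comp (ContinuousLinearMap.inl ℝ ℂ (ℂ × ℂ)) = 0 := by
    intro m hm
    have h1 : (fun t : ℂ => R (t, 0, 0)) =ᶠ[𝓝 m] fun _ => (0 : R4) := by
      filter_upwards [isOpen_ball.mem_nhds hm] with t ht
      have h2 := lmod_eq D x₀ v h ε t 0
      simp only [hR]
      rw [h0 t ht]
      rw [show ((t, 0, 0) : ℂ × ℂ × ℂ) = (t, (0 : ℂ × ℂ)) from rfl, h2]
      simp
    have h2 := (hsl 0 z0 m hm).fderiv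
    rw [← h2, h1.fderiv_eq]
    simp
  have hb : ∀ m ∈ ball (0 : ℂ) 2,
      ‖(fderiv ℝ R (m, 0, y)).comp (ContinuousLinearMap.inl ℝ ℂ (ℂ × ℂ))‖ ≤ ε * δ * ‖y‖ := by
    intro m hm
    refine ContinuousLinearMap.opNorm_le_bound _ (by positivity) fun u => ?_
    have h1 : ‖fderiv ℝ R (m, 0, y) - fderiv ℝ R (m, 0, 0)‖ ≤ ε * δ * ‖y‖ := by
      have h2 := Convex.norm_image_sub_le_of_norm_fderiv_le (𝕜 := ℝ) (f := fderiv ℝ R) hRdd hffR
        convex_P3 (show ((m, 0, 0) : ℂ × ℂ × ℂ) ∈ P3 from ⟨hm, z0, z0⟩)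
        (show ((m, 0, y) : ℂ × ℂ × ℂ) ∈ P3 from ⟨hm, z0, hy⟩)
      refine h2.trans (le_of_eq ?_)
      congr 1
      simp [Prod.norm_def]
    have h3 : (fderiv ℝ R (m, 0, y)).comp (ContinuousLinearMap.inl ℝ ℂ (ℂ × ℂ)) u =
        (fderiv ℝ R (m, 0, y) - fderiv ℝ R (m, 0, 0)) (u, 0) := by
      have h4 := DFunLike.congr_fun (hz m hm) u
      simp only [ContinuousLinearMap.comp_apply, ContinuousLinearMap.inl_apply] at h4 ⊢
      rw [_root_.sub_apply, h4]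
      simp
    rw [h3]
    refine (ContinuousLinearMap.le_opNorm _ _).trans ?_
    refine mul_le_mul h1 ?_ (norm_nonneg _) (by positivity)
    simp [Prod.norm_def]
  exact Convex.norm_image_sub_le_of_norm_hasFDerivWithin_le (𝕜 := ℝ) (f := fun t : ℂ => R (t, 0, y))
    (fun m hm => (hsl y hy m hm).hasFDerivWithinAt) hb (convex_ball _ _) hl' hl

end

/-- `BX` -/
theorem BX (hJD : JD_statement) : BX_statement := by
  intro D K δ₁ hK hδ₁
  obtain ⟨B, hB1, hB⟩ := H74.K2H.exists_bound D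
  set C₁ : ℝ := 8 * B * K + 1 with hC₁
  have hC1 : 1 ≤ C₁ := by
    have : 0 ≤ B * K := mul_nonneg (by linarith) hK.le
    rw [hC₁]
    linarith
  have hB0 : 0 < B := by linarith
  set δ : ℝ := min δ₁ (1 / (80 * (K + 1) * (B + 1))) with hδd
  have hδ : 0 < δ := lt_min hδ₁ (by positivity)
  obtain ⟨ε₀, hε₀, hJ⟩ := hJD D K δ hK hδ
  refine ⟨4 * K + C₁, by linarith, min ε₀ (1 / (200 * (K + 1) * B * C₁ ^ 2)),
    lt_min hε₀ (by positivity), fun ε hε hε1 x₀ v h hv hh hvh => ?_⟩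
  obtain ⟨Ξ, hsm, hq, h0⟩ := hJ ε hε (hε1.trans (min_le_left _ _)) x₀ v h hv hh hvh
  have hε2 : ε ≤ 1 / (200 * (K + 1) * B * C₁ ^ 2) := hε1.trans (min_le_right _ _)
  have hδe : δ * (80 * (K + 1) * (B + 1)) ≤ 1 := by
    have h1 : δ ≤ 1 / (80 * (K + 1) * (B + 1)) := min_le_right _ _
    rwa [le_div_iff₀ (by positivity)] at h1
  have d1 : δ ≤ 1 := by
    refine (min_le_right _ _).trans ?_
    rw [div_le_one (by positivity)]
    nlinarith [mul_nonneg hK.le hB0.le]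
  have d2' : 4 * K * ((B + 1) * δ) ≤ 1 / 20 := by
    have h1 : 0 < (B + 1) * δ := by positivity
    nlinarith
  have d2 : 4 * K * δ ≤ 1 := by
    have h1 : 0 < K * δ := by positivity
    have h2 : 0 < K * δ * B := by positivity
    nlinarith
  have hεe : ε * (200 * (K + 1) * B * C₁ ^ 2) ≤ 1 := by
    have := mul_le_mul_of_nonneg_right hε2 (show 0 ≤ 200 * (K + 1) * B * C₁ ^ 2 by positivity)
    rwa [one_div, inv_mul_cancel₀ (by positivity)] at this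
  have d3' : 4 * K * (2 * B * C₁ ^ 2 * ε) ≤ 1 / 25 := by
    have h1 : 0 < B * C₁ ^ 2 * ε := by positivity
    nlinarith
  have d3 : 4 * K * (2 * B * (8 * B * K + 1) ^ 2 * ε + (B + 1) * δ) ≤ 1 / 10 := by
    rw [← hC₁]
    linarith
  have d4 : 4 * (8 * B * K + 1) * ε < 1 := by
    rw [← hC₁]
    have h1 : C₁ ≤ C₁ ^ 2 := by nlinarith
    have h2 : C₁ ^ 2 ≤ (K + 1) * B * C₁ ^ 2 := by
      have : 1 ≤ (K + 1) * B := by nlinarith [mul_nonneg hK.le hB0.le]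
      nlinarith [sq_nonneg C₁]
    nlinarith
  have hcst : ∀ l ∈ ball (0 : ℂ) 2, Cst D B K δ ε x₀ v h l := fun l hl =>
    ⟨hB1, hB, hK, hε, hδ, hv, hh, hvh, (mem_ball_zero_iff.1 hl).le, d1, d2, d3, d4⟩
  have hnear : ∀ l ∈ ball (0 : ℂ) 2, Near D δ ε x₀ v h l (fun p => Ξ (l, p)) := fun l hl =>
    near_of hδ hε hsm (fun q hq' => (hq q hq').1) (fun q hq' => (hq q hq').2.1) h0 hl
  refine ⟨Ξ, hsm, fun q hq' => ⟨(hq q hq').1, (hq q hq').2.1.trans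
    (mul_le_mul_of_nonneg_left (min_le_left _ _) hε.le)⟩, h0, fun l hl => ?_,
    fun l hl l' hl' y hy y' hy' => ?_⟩
  · have H := hnear l hl
    have C := hcst l hl
    refine ⟨mkBox H C, fun p hp => rfl, H.zero, fun p hp => mQ_norm (H.goodQ C hp), ?_⟩
    intro p hp q hq'
    have h1 := H.lb C hp hq'
    have h2 := H.ub C hp hq'
    have hn : 0 ≤ ‖Ξ (l, p) - Ξ (l, q)‖ := norm_nonneg _
    constructor
    · rw [div_mul_eq_mul_div, div_le_iff₀ (by linarith)]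
      change ε * ‖p - q‖ ≤ ‖Ξ (l, p) - Ξ (l, q)‖ * (4 * K + C₁)
      nlinarith
    · change ‖Ξ (l, p) - Ξ (l, q)‖ ≤ (4 * K + C₁) * ε * ‖p - q‖
      have h3 : 0 ≤ K * (ε * ‖p - q‖) := by positivity
      have h4 : ‖Ξ (l, p) - Ξ (l, q)‖ ≤ C₁ * ε * ‖p - q‖ := h2
      nlinarith
  · have z0 : (0 : ℂ) ∈ ball (0 : ℂ) 2 := by simp
    -- the model
    have m1 : lmod D x₀ v h ε (l, 0, y) - lmod D x₀ v h ε (l', 0, y') =
        ε • (cm D x₀ (y - y') v + cm D x₀ (l * y - l' * y') h) := by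
      simp only [lmod, ← cmL_apply, map_sub, map_zero, zero_add]
      rw [add_sub_add_left_eq_sub, ← smul_sub]
      congr 1
      abel
    have m2 := hvh (y - y') (l * y - l' * y')
    have m3 : ε * (‖y - y'‖ + ‖l * y - l' * y'‖) ≤
        K * ‖lmod D x₀ v h ε (l, 0, y) - lmod D x₀ v h ε (l', 0, y')‖ := by
      rw [m1, norm_smul, Real.norm_of_nonneg hε.le]
      calc ε * (‖y - y'‖ + ‖l * y - l' * y'‖) ≤
          ε * (K * ‖cm D x₀ (y - y') v + cm D x₀ (l * y - l' * y') h‖) :=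
            mul_le_mul_of_nonneg_left m2 hε.le
        _ = K * (ε * ‖cm D x₀ (y - y') v + cm D x₀ (l * y - l' * y') h‖) := by ring
    -- the remainder
    have r1 := rem_l (D := D) (v := v) (h := h) hδ hε hsm (fun q hq' => (hq q hq').2.2) h0 hl hl' hy'
    have r2 : ‖(Ξ (l, 0, y) - lmod D x₀ v h ε (l, 0, y)) -
        (Ξ (l, 0, y') - lmod D x₀ v h ε (l, 0, y'))‖ ≤ ε * δ * ‖y - y'‖ := by
      have h1 := (hnear l hl).sub (p := (0, y)) (q := (0, y')) ⟨z0, hy⟩ ⟨z0, hy'⟩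
      have h2 : ‖((0 : ℂ), y) - ((0 : ℂ), y')‖ = ‖y - y'‖ := by
        simp [Prod.norm_def]
      rw [h2] at h1
      refine le_trans (le_of_eq ?_) h1
      congr 1
      have e1 := lmod_eq D x₀ v h ε l (0, y)
      have e2 := lmod_eq D x₀ v h ε l (0, y')
      rw [e1, e2, map_sub]
      abel
    have r3 : ‖y'‖ * ‖l - l'‖ ≤ ‖l * y - l' * y'‖ + 2 * ‖y - y'‖ := by
      rw [← norm_mul]
      have e1 : y' * (l - l') = (l * y - l' * y') - l * (y - y') := by ring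
      rw [e1]
      refine (norm_sub_le _ _).trans ?_
      rw [norm_mul]
      have := (mem_ball_zero_iff.1 hl).le
      gcongr
    have r4 : ‖(lmod D x₀ v h ε (l, 0, y) - lmod D x₀ v h ε (l', 0, y')) -
        (Ξ (l, 0, y) - Ξ (l', 0, y'))‖ ≤
        ε * δ * (3 * (‖y - y'‖ + ‖l * y - l' * y'‖)) := by
      have e1 : (lmod D x₀ v h ε (l, 0, y) - lmod D x₀ v h ε (l', 0, y')) -
          (Ξ (l, 0, y) - Ξ (l', 0, y')) =
          -(((Ξ (l, 0, y) - lmod D x₀ v h ε (l, 0, y)) -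
          (Ξ (l, 0, y') - lmod D x₀ v h ε (l, 0, y'))) +
          ((Ξ (l, 0, y') - lmod D x₀ v h ε (l, 0, y')) -
          (Ξ (l', 0, y') - lmod D x₀ v h ε (l', 0, y')))) := by abel
      rw [e1, norm_neg]
      refine (norm_add_le _ _).trans ((add_le_add r2 r1).trans ?_)
      have h1 : 0 ≤ ε * δ := by positivity
      have h2 := mul_le_mul_of_nonneg_left r3 h1
      have h3 : 0 ≤ ε * δ * ‖l * y - l' * y'‖ := by positivity
      nlinarith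
    have r5 : ‖lmod D x₀ v h ε (l, 0, y) - lmod D x₀ v h ε (l', 0, y')‖ ≤
        ‖Ξ (l, 0, y) - Ξ (l', 0, y')‖ + ε * δ * (3 * (‖y - y'‖ + ‖l * y - l' * y'‖)) := by
      have e1 : lmod D x₀ v h ε (l, 0, y) - lmod D x₀ v h ε (l', 0, y') =
          (Ξ (l, 0, y) - Ξ (l', 0, y')) +
          ((lmod D x₀ v h ε (l, 0, y) - lmod D x₀ v h ε (l', 0, y')) -
          (Ξ (l, 0, y) - Ξ (l', 0, y'))) := by abel
      calc ‖lmod D x₀ v h ε (l, 0, y) - lmod D x₀ v h ε (l', 0, y')‖ =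
          ‖(Ξ (l, 0, y) - Ξ (l', 0, y')) +
          ((lmod D x₀ v h ε (l, 0, y) - lmod D x₀ v h ε (l', 0, y')) -
          (Ξ (l, 0, y) - Ξ (l', 0, y')))‖ := by rw [← e1]
        _ ≤ _ := (norm_add_le _ _).trans (add_le_add le_rfl r4)
    set S := ‖y - y'‖ + ‖l * y - l' * y'‖ with hS
    have hS0 : 0 ≤ S := by positivity
    have r6 := mul_le_mul_of_nonneg_left r5 hK.le
    have r7 : K * (ε * δ * (3 * S)) ≤ 3 / 4 * (ε * S) := by
      have := mul_le_mul_of_nonneg_right d2 (mul_nonneg hε.le hS0)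
      linarith
    have r8 : ε * S ≤ 4 * (K * ‖Ξ (l, 0, y) - Ξ (l', 0, y')‖) := by
      rw [mul_add] at r6
      linarith
    have hn : 0 ≤ C₁ * ‖Ξ (l, 0, y) - Ξ (l', 0, y')‖ := by positivity
    rw [div_mul_eq_mul_div, div_le_iff₀ (by linarith)]
    linarith

end Vale.Agent.P247.H329
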