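import Vale.Agent.P247.H647.Defs
import Vale.Agent.P247.H74.K2H.Loc
import Mathlib.Analysis.Quaternion

/-!
# P247, stage 2, package LIFT: a periodic oriented orthonormal frame lifts to unit quaternions

The frame is given by imaginary unit quaternions `n 0, n 1, n 2`.
-/

open scoped ContDiff Topology Quaternion
open Set Filter Metric

noncomputable section

namespace Vale.Agent.P247.H329

open Vale.Agent.P247.H74 Vale.Agent.P247.H574

/-! ## Algebra -/

section ring

variable {A : Type*} [Ring A]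

theorem inter_a {a b c a' b' c' : A} (haa : a * a = -1) (hab : a * b = c) (hac : a * c = -b)
    (haa' : a' * a' = -1) (hba' : b' * a' = -c') (hca' : c' * a' = b') :
    a * (1 - a * a' - b * b' - c * c') = (1 - a * a' - b * b' - c * c') * a' := by
  have h1 : a * (1 - a * a' - b * b' - c * c') = a + a' - c * b' + b * c' := by
    calc a * (1 - a * a' - b * b' - c * c') =
        a - (a * a) * a' - (a * b) * b' - (a * c) * c' := by noncomm_ring
      _ = _ := by rw [haa, hab, hac]; noncomm_ring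
  have h2 : (1 - a * a' - b * b' - c * c') * a' = a + a' - c * b' + b * c' := by
    calc (1 - a * a' - b * b' - c * c') * a' =
        a' - a * (a' * a') - b * (b' * a') - c * (c' * a') := by noncomm_ring
      _ = _ := by rw [haa', hba', hca']; noncomm_ring
  rw [h1, h2]

end ring

/-- an oriented orthonormal frame -/
structure Tri (a b c : ℍ[ℝ]) : Prop where
  aa : a * a = -1
  bb : b * b = -1
  ab : a * b = c
  ba : b * a = -c

theorem Tri.ac {a b c : ℍ[ℝ]} (h : Tri a b c) : a * c = -b := by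
  rw [← h.ab, ← mul_assoc, h.aa, neg_one_mul]

theorem Tri.cb {a b c : ℍ[ℝ]} (h : Tri a b c) : c * b = -a := by
  rw [← h.ab, mul_assoc, h.bb, mul_neg_one]

theorem Tri.ca {a b c : ℍ[ℝ]} (h : Tri a b c) : c * a = b := by
  have h1 : c = -(b * a) := by rw [h.ba, neg_neg]
  rw [h1, neg_mul, mul_assoc, h.aa, mul_neg_one, neg_neg]

theorem Tri.bc {a b c : ℍ[ℝ]} (h : Tri a b c) : b * c = a := by
  have h1 : c = -(b * a) := by rw [h.ba, neg_neg]
  rw [h1, mul_neg, ← mul_assoc, h.bb, neg_one_mul, neg_neg]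

theorem Tri.cc {a b c : ℍ[ℝ]} (h : Tri a b c) : c * c = -1 := by
  have h1 : c * c = c * a * b := by rw [mul_assoc, h.ab]
  rw [h1, h.ca, h.bb]

/-- the intertwiner, up to a positive factor -/
def Xq (a b c a' b' c' : ℍ[ℝ]) : ℍ[ℝ] := 1 - a * a' - b * b' - c * c'

theorem Xq_a {a b c a' b' c' : ℍ[ℝ]} (h : Tri a b c) (h' : Tri a' b' c') :
    a * Xq a b c a' b' c' = Xq a b c a' b' c' * a' :=
  inter_a h.aa h.ab h.ac h'.aa h'.ba h'.ca

theorem Xq_b {a b c a' b' c' : ℍ[ℝ]} (h : Tri a b c) (h' : Tri a' b' c') :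
    b * Xq a b c a' b' c' = Xq a b c a' b' c' * b' := by
  have h1 := inter_a (a := b) (b := a) (c := -c) (a' := b') (b' := a') (c' := -c') h.bb h.ba
    (by rw [mul_neg, h.bc]) h'.bb (by rw [h'.ab, neg_neg]) (by rw [neg_mul, h'.cb, neg_neg])
  have h2 : (1 - b * b' - a * a' - -c * -c') = Xq a b c a' b' c' := by
    rw [Xq]; noncomm_ring
  rwa [h2] at h1

theorem Xq_self {a b c : ℍ[ℝ]} (h : Tri a b c) : Xq a b c a b c = 4 := by
  rw [Xq, h.aa, h.bb, h.cc]
  norm_num

/-! ## The commutant -/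

theorem star_of_sq {a : ℍ[ℝ]} (h : a * a = -1) : star a = -a := by
  have hn : ‖a‖ = 1 := by
    have h1 : ‖a‖ * ‖a‖ = 1 := by
      rw [← norm_mul, h, norm_neg, norm_one]
    nlinarith [norm_nonneg a]
  have h2 : a * star a = 1 := by
    rw [Quaternion.self_mul_star, Quaternion.normSq_eq_norm_mul_self, hn]
    norm_num
  have ha : a ≠ 0 := by
    intro h0
    rw [h0, norm_zero] at hn
    norm_num at hn
  apply mul_left_cancel₀ ha
  rw [h2, mul_neg, h, neg_neg]

theorem re_of_sq {a : ℍ[ℝ]} (h : a * a = -1) : a.re = 0 := by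
  have h1 := congrArg (fun q : ℍ[ℝ] => q.re) (star_of_sq h)
  simp at h1
  linarith

theorem norm_of_sq {a : ℍ[ℝ]} (h : a * a = -1) : ‖a‖ = 1 := by
  have h1 : ‖a‖ * ‖a‖ = 1 := by
    rw [← norm_mul, h, norm_neg, norm_one]
  nlinarith [norm_nonneg a]

/-- an imaginary quaternion commuting with `a`, `a ^ 2 = -1`, is a multiple of `a` -/
theorem comm_imag {a v : ℍ[ℝ]} (ha : a * a = -1) (hv : v.re = 0) (hc : v * a = a * v) :
    ∃ r : ℝ, v = r • a := by
  have h1 : star v = -v := by
    ext <;> simp [hv]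
  have h2 : star (v * a) = v * a := by
    rw [star_mul, star_of_sq ha, h1, neg_mul_neg, ← hc]
  have h3 : v * a = ((v * a).re : ℍ[ℝ]) := by
    have := Quaternion.star_eq_self.1 h2
    exact this
  refine ⟨-(v * a).re, ?_⟩
  have h4 : v = -((v * a) * a) := by
    rw [mul_assoc, ha, mul_neg_one, neg_neg]
  calc v = -((v * a) * a) := h4
    _ = -(((v * a).re : ℍ[ℝ]) * a) := by rw [← h3]
    _ = _ := by rw [Quaternion.coe_mul_eq_smul, neg_smul]

theorem central {a b c q : ℍ[ℝ]} (h : Tri a b c) (ha : q * a = a * q) (hb : q * b = b * q) :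
    q = (q.re : ℍ[ℝ]) := by
  set v : ℍ[ℝ] := q - (q.re : ℍ[ℝ]) with hv
  have hvr : v.re = 0 := by simp [hv]
  have hva : v * a = a * v := by
    rw [hv, sub_mul, mul_sub, ha, Quaternion.coe_commutes]
  have hvb : v * b = b * v := by
    rw [hv, sub_mul, mul_sub, hb, Quaternion.coe_commutes]
  obtain ⟨r, hr⟩ := comm_imag h.aa hvr hva
  obtain ⟨s, hs⟩ := comm_imag h.bb hvr hvb
  have h1 : r • c = (-s : ℝ) • (1 : ℍ[ℝ]) := by
    have h2 : v * b = r • c := by rw [hr, smul_mul_assoc, h.ab]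
    have h3 : v * b = (-s : ℝ) • (1 : ℍ[ℝ]) := by
      rw [hs, smul_mul_assoc, h.bb, smul_neg, neg_smul]
    rw [← h2, h3]
  have hc : c.re = 0 := re_of_sq h.cc
  have h4 : -s = 0 := by
    have := congrArg (fun q : ℍ[ℝ] => q.re) h1
    simp [hc] at this
    linarith
  have hs0 : s = 0 := by linarith
  rw [hs0, zero_smul] at hs
  have := sub_eq_zero.1 (hv ▸ hs)
  exact this

end Vale.Agent.P247.H329
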