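import Vale.Agent.P247.H329.T1

/-!
# P247, stage 2, package LIFT: the lift
-/

open scoped ContDiff Topology Quaternion
open Set Filter Metric

noncomputable section

namespace Vale.Agent.P247.H329

open Vale.Agent.P247.H74 Vale.Agent.P247.H574

/-- a periodic oriented orthonormal frame -/
structure Fr (n : Fin 3 → R4 → ℍ[ℝ]) : Prop where
  sm : ∀ j, ContDiff ℝ ∞ (n j)
  per : ∀ j (k : Fin 4 → ℤ) (x : R4), n j (fun i => x i + k i) = n j x
  tri : ∀ x, Tri (n 0 x) (n 1 x) (n 2 x)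

variable {n : Fin 3 → R4 → ℍ[ℝ]}

/-- the intertwiner between two points -/
def Xf (n : Fin 3 → R4 → ℍ[ℝ]) (x y : R4) : ℍ[ℝ] :=
  Xq (n 0 x) (n 1 x) (n 2 x) (n 0 y) (n 1 y) (n 2 y)

theorem Fr.norm (h : Fr n) (j : Fin 3) (x : R4) : ‖n j x‖ = 1 := by
  fin_cases j
  · exact norm_of_sq (h.tri x).aa
  · exact norm_of_sq (h.tri x).bb
  · exact norm_of_sq (h.tri x).cc

theorem Fr.lip (h : Fr n) : ∃ B : ℝ, 1 ≤ B ∧ ∀ j x y, ‖n j x - n j y‖ ≤ B * ‖x - y‖ := by
  have h1 : ∀ j, ∃ B : ℝ, ∀ x, ‖fderiv ℝ (n j) x‖ ≤ B := fun j =>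
    H74.K2H.bdd_of_per ((h.sm j).continuous_fderiv (by simp)) (H74.K2H.fderiv_per (h.per j))
  choose B hB using h1
  refine ⟨max 1 (max (B 0) (max (B 1) (B 2))), le_max_left _ _, fun j x y => ?_⟩
  refine Convex.norm_image_sub_le_of_norm_fderiv_le (𝕜 := ℝ) (s := univ)
    (fun z _ => ((h.sm j).differentiable (by simp)) z) (fun z _ => (hB j z).trans ?_) convex_univ
    (mem_univ _) (mem_univ _)
  fin_cases j
  · exact (le_max_left _ _).trans (le_max_right _ _)
  · exact (le_max_left _ _).trans ((le_max_right _ _).trans (le_max_right _ _))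
  · exact (le_max_right _ _).trans ((le_max_right _ _).trans (le_max_right _ _))

theorem four_eq : (4 : ℍ[ℝ]) = ((4 : ℝ) : ℍ[ℝ]) := (map_ofNat (algebraMap ℝ ℍ[ℝ]) 4).symm

theorem norm_four : ‖(4 : ℍ[ℝ])‖ = 4 := by
  rw [four_eq, Quaternion.norm_coe]
  norm_num

theorem Xf_self (h : Fr n) (x : R4) : Xf n x x = 4 := Xq_self (h.tri x)

theorem Xf_ne (h : Fr n) : ∃ δ : ℝ, 0 < δ ∧ ∀ x y : R4, ‖x - y‖ < δ → Xf n x y ≠ 0 := by
  obtain ⟨B, hB1, hB⟩ := h.lip
  refine ⟨1 / B, by positivity, fun x y hxy h0 => ?_⟩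
  have h1 : Xf n x y - 4 = -((n 0 x - n 0 y) * n 0 y + (n 1 x - n 1 y) * n 1 y +
      (n 2 x - n 2 y) * n 2 y) := by
    rw [← Xf_self h y]
    simp only [Xf, Xq]
    noncomm_ring
  have h2 : ‖(n 0 x - n 0 y) * n 0 y + (n 1 x - n 1 y) * n 1 y + (n 2 x - n 2 y) * n 2 y‖ ≤
      3 * (B * ‖x - y‖) := by
    refine (norm_add₃_le).trans ?_
    rw [norm_mul, norm_mul, norm_mul, h.norm, h.norm, h.norm]
    have := hB 0 x y
    have := hB 1 x y
    have := hB 2 x y
    linarith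
  have h3 : B * ‖x - y‖ < 1 := by
    rw [lt_div_iff₀ (by linarith)] at hxy
    linarith
  rw [h0, zero_sub, neg_inj] at h1
  rw [← h1] at h2
  have h4 := norm_four
  rw [h4] at h2
  linarith

/-- the unit intertwiner -/
def Vf (n : Fin 3 → R4 → ℍ[ℝ]) (x y : R4) : ℍ[ℝ] := ‖Xf n x y‖⁻¹ • Xf n x y

theorem Vf_norm {x y : R4} (hx : Xf n x y ≠ 0) : ‖Vf n x y‖ = 1 := by
  rw [Vf, norm_smul, norm_inv, norm_norm, inv_mul_cancel₀ (norm_ne_zero_iff.2 hx)]

theorem Vf_a (h : Fr n) (x y : R4) : n 0 x * Vf n x y = Vf n x y * n 0 y := by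
  rw [Vf, mul_smul_comm, smul_mul_assoc, Xf, Xq_a (h.tri x) (h.tri y)]

theorem Vf_b (h : Fr n) (x y : R4) : n 1 x * Vf n x y = Vf n x y * n 1 y := by
  rw [Vf, mul_smul_comm, smul_mul_assoc, Xf, Xq_b (h.tri x) (h.tri y)]

theorem Vf_self (h : Fr n) (x : R4) : Vf n x x = 1 := by
  have h4 := norm_four
  rw [Vf, Xf_self h, h4]
  rw [four_eq, ← mul_one ((4 : ℝ) : ℍ[ℝ]), Quaternion.coe_mul_eq_smul, smul_smul]
  norm_num

/-- `U` is a lift on the set `s` -/
structure LiftOn (n : Fin 3 → R4 → ℍ[ℝ]) (U : R4 → ℍ[ℝ]) (s : Set R4) : Prop where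
  sm : ContDiffOn ℝ ∞ U s
  unit : ∀ x ∈ s, ‖U x‖ = 1
  ia : ∀ x ∈ s, n 0 x * U x = U x * n 0 0
  ib : ∀ x ∈ s, n 1 x * U x = U x * n 1 0
  one : U 0 = 1

theorem exists_balls (h : Fr n) {δ : ℝ}
    (hX : ∀ x y : R4, ‖x - y‖ < δ → Xf n x y ≠ 0) (N : ℕ) :
    ∃ U : R4 → ℍ[ℝ], LiftOn n U (ball 0 ((N + 1) * δ)) := by
  have hsm : ∀ (s : ℝ) (x : R4), ‖x - s • x‖ < δ → ContDiffAt ℝ ∞ (fun x => Vf n x (s • x)) x := by
    intro s x hx
    have h1 : ContDiff ℝ ∞ (fun x : R4 => Xf n x (s • x)) := by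
      have h2 : ∀ j, ContDiff ℝ ∞ (fun x : R4 => n j (s • x)) := fun j =>
        (h.sm j).comp (contDiff_const_smul s)
      exact (((contDiff_const.sub ((h.sm 0).mul (h2 0))).sub ((h.sm 1).mul (h2 1))).sub
        ((h.sm 2).mul (h2 2)))
    have h3 : Xf n x (s • x) ≠ 0 := hX _ _ hx
    exact ((h1.contDiffAt.norm ℝ h3).inv (norm_ne_zero_iff.2 h3)).smul h1.contDiffAt
  induction N with
  | zero =>
    refine ⟨fun x => Vf n x 0, ?_, fun x hx => ?_, fun x _ => Vf_a h x 0, fun x _ => Vf_b h x 0,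
      Vf_self h 0⟩
    · intro x hx
      have hx' : ‖x - (0 : ℝ) • x‖ < δ := by
        rw [zero_smul, sub_zero]
        simpa using hx
      have := hsm 0 x hx'
      simp only [zero_smul] at this
      exact this.contDiffWithinAt
    · refine Vf_norm (hX _ _ ?_)
      rw [sub_zero]
      simpa using hx
  | succ N ih =>
    obtain ⟨U, hU⟩ := ih
    set s : ℝ := ((N : ℝ) + 1) / (N + 2) with hs
    have hN : (0 : ℝ) < (N : ℝ) + 2 := by positivity
    have hs0 : 0 ≤ s := by positivity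
    have key : ∀ x ∈ ball (0 : R4) (((N + 1 : ℕ) + 1) * δ), ‖x - s • x‖ < δ ∧
        s • x ∈ ball (0 : R4) ((N + 1) * δ) := by
      intro x hx
      rw [mem_ball_zero_iff] at hx
      push_cast at hx
      have h1 : ‖x‖ < (N + 2) * δ := by linarith
      constructor
      · have h2 : x - s • x = (1 / ((N : ℝ) + 2)) • x := by
          have h3 : (1 : ℝ) - s = 1 / ((N : ℝ) + 2) := by
            rw [hs]
            field_simp
            ring
          calc x - s • x = (1 - s) • x := by rw [sub_smul, one_smul]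
            _ = _ := by rw [h3]
        rw [h2, norm_smul, Real.norm_of_nonneg (by positivity), div_mul_eq_mul_div, one_mul,
          div_lt_iff₀ hN]
        linarith
      · rw [mem_ball_zero_iff, norm_smul, Real.norm_of_nonneg hs0, hs, div_mul_eq_mul_div,
          div_lt_iff₀ hN]
        have h3 : (0 : ℝ) < (N : ℝ) + 1 := by positivity
        nlinarith
    refine ⟨fun x => Vf n x (s • x) * U (s • x), ?_, fun x hx => ?_, fun x hx => ?_,
      fun x hx => ?_, ?_⟩
    · intro x hx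
      obtain ⟨k1, k2⟩ := key x hx
      have h1 : ContDiffAt ℝ ∞ U (s • x) := hU.sm.contDiffAt (isOpen_ball.mem_nhds k2)
      have h2 : ContDiffAt ℝ ∞ (fun x : R4 => U (s • x)) x :=
        h1.comp x (contDiff_const_smul s).contDiffAt
      exact ((hsm s x k1).mul h2).contDiffWithinAt
    · obtain ⟨k1, k2⟩ := key x hx
      rw [norm_mul, Vf_norm (hX _ _ k1), hU.unit _ k2, one_mul]
    · obtain ⟨k1, k2⟩ := key x hx
      rw [← mul_assoc, Vf_a h, mul_assoc, hU.ia _ k2, mul_assoc]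
    · obtain ⟨k1, k2⟩ := key x hx
      rw [← mul_assoc, Vf_b h, mul_assoc, hU.ib _ k2, mul_assoc]
    · simp [Vf_self h, hU.one]

/-- two unit intertwiners differ by a locally constant sign -/
theorem sign_const (h : Fr n) {s : Set R4} (hs : IsPreconnected s) {U U' : R4 → ℍ[ℝ]}
    (hU : ContinuousOn U s) (hU' : ContinuousOn U' s) (u1 : ∀ x ∈ s, ‖U x‖ = 1)
    (u1' : ∀ x ∈ s, ‖U' x‖ = 1) (ia : ∀ x ∈ s, n 0 x * U x = U x * n 0 0)
    (ia' : ∀ x ∈ s, n 0 x * U' x = U' x * n 0 0) (ib : ∀ x ∈ s, n 1 x * U x = U x * n 1 0)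
    (ib' : ∀ x ∈ s, n 1 x * U' x = U' x * n 1 0) :
    ∃ σ : ℝ, (σ = 1 ∨ σ = -1) ∧ ∀ x ∈ s, U' x = σ • U x := by
  have key : ∀ x ∈ s, U' x = (star (U x) * U' x).re • U x ∧
      ((star (U x) * U' x).re = 1 ∨ (star (U x) * U' x).re = -1) := by
    intro x hx
    set g := star (U x) * U' x with hg
    have hsU : star (U x) * U x = 1 := by
      rw [Quaternion.star_mul_self, Quaternion.normSq_eq_norm_mul_self, u1 x hx]
      norm_num
    have hUs : U x * star (U x) = 1 := by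
      rw [Quaternion.self_mul_star, Quaternion.normSq_eq_norm_mul_self, u1 x hx]
      norm_num
    have hcomm : ∀ a b : ℍ[ℝ], a * U x = U x * b → a * U' x = U' x * b → g * b = b * g := by
      intro a b h1 h2
      have h3 : star (U x) * a = b * star (U x) := by
        calc star (U x) * a = star (U x) * (a * U x) * star (U x) := by
              rw [mul_assoc, mul_assoc, hUs, mul_one]
          _ = star (U x) * (U x * b) * star (U x) := by rw [h1]
          _ = b * star (U x) := by rw [← mul_assoc, hsU, one_mul]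
      rw [hg, mul_assoc, ← h2, ← mul_assoc, h3, mul_assoc]
    have hre := central (h.tri 0) (hcomm _ _ (ia x hx) (ia' x hx)) (hcomm _ _ (ib x hx) (ib' x hx))
    have hn : ‖g‖ = 1 := by
      rw [hg, norm_mul, Quaternion.norm_star, u1 x hx, u1' x hx, one_mul]
    have hr : |g.re| = 1 := by
      rw [hre, Quaternion.norm_coe] at hn
      exact hn
    refine ⟨?_, ?_⟩
    · calc U' x = U x * g := by rw [hg, ← mul_assoc, hUs, one_mul]
        _ = U x * (g.re : ℍ[ℝ]) := by rw [← hre]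
        _ = g.re • U x := by rw [Quaternion.mul_coe_eq_smul]
    · rcases abs_eq (by norm_num : (0 : ℝ) ≤ 1) |>.1 hr with h4 | h4
      · exact Or.inl h4
      · exact Or.inr h4
  rcases s.eq_empty_or_nonempty with rfl | ⟨x₀, hx₀⟩
  · exact ⟨1, Or.inl rfl, fun x hx => absurd hx (notMem_empty x)⟩
  · have hcont : ContinuousOn (fun x => (star (U x) * U' x).re) s :=
      Quaternion.continuous_re.comp_continuousOn ((continuous_star.comp_continuousOn hU).mul hU')
    have hmaps : MapsTo (fun x => (star (U x) * U' x).re) s ({1, -1} : Set ℝ) := by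
      intro x hx
      rcases (key x hx).2 with h1 | h1
      · exact Or.inl h1
      · exact Or.inr h1
    refine ⟨(star (U x₀) * U' x₀).re, (key x₀ hx₀).2, fun x hx => ?_⟩
    have hc : (star (U x) * U' x).re = (star (U x₀) * U' x₀).re :=
      hs.constant_of_mapsTo (Set.toFinite ({1, -1} : Set ℝ)).isDiscrete hcont hmaps hx hx₀
    have h2 := (key x hx).1
    rw [hc] at h2
    exact h2

theorem lift_unique (h : Fr n) {s : Set R4} (hs : IsPreconnected s) (h0 : (0 : R4) ∈ s)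
    {U U' : R4 → ℍ[ℝ]} (hU : LiftOn n U s) (hU' : LiftOn n U' s) : ∀ x ∈ s, U' x = U x := by
  obtain ⟨σ, hσ, hall⟩ := sign_const h hs hU.sm.continuousOn hU'.sm.continuousOn hU.unit hU'.unit
    hU.ia hU'.ia hU.ib hU'.ib
  have h1 := hall 0 h0
  rw [hU.one, hU'.one] at h1
  have h2 : σ = 1 := by
    have := congrArg (fun q : ℍ[ℝ] => q.re) h1
    simp at this
    linarith
  intro x hx
  rw [hall x hx, h2, one_smul]

theorem LiftOn.mono {U : R4 → ℍ[ℝ]} {s t : Set R4} (hU : LiftOn n U t) (hst : s ⊆ t) :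
    LiftOn n U s :=
  ⟨hU.sm.mono hst, fun x hx => hU.unit x (hst hx), fun x hx => hU.ia x (hst hx),
    fun x hx => hU.ib x (hst hx), hU.one⟩

theorem exists_lift (h : Fr n) : ∃ U : R4 → ℍ[ℝ], LiftOn n U univ := by
  obtain ⟨δ, hδ, hX⟩ := Xf_ne h
  choose U hU using exists_balls h hX
  have hmem : ∀ x : R4, x ∈ ball (0 : R4) (((⌈‖x‖ / δ⌉₊ : ℕ) + 1) * δ) := by
    intro x
    rw [mem_ball_zero_iff]
    have h1 : ‖x‖ / δ ≤ (⌈‖x‖ / δ⌉₊ : ℝ) := Nat.le_ceil _
    rw [div_le_iff₀ hδ] at h1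
    nlinarith
  have heq : ∀ N : ℕ, ∀ x ∈ ball (0 : R4) ((N + 1) * δ), U ⌈‖x‖ / δ⌉₊ x = U N x := by
    intro N x hx
    set M := ⌈‖x‖ / δ⌉₊
    have hx' := hmem x
    rcases le_total N M with hNM | hNM
    · have hsub : ball (0 : R4) ((N + 1) * δ) ⊆ ball 0 ((M + 1) * δ) := by
        refine ball_subset_ball (mul_le_mul_of_nonneg_right ?_ hδ.le)
        have : (N : ℝ) ≤ M := by exact_mod_cast hNM
        linarith
      exact lift_unique h (convex_ball _ _).isPreconnected (mem_ball_self (by positivity)) (hU N)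
        ((hU M).mono hsub) x hx
    · have hsub : ball (0 : R4) ((M + 1) * δ) ⊆ ball 0 ((N + 1) * δ) := by
        refine ball_subset_ball (mul_le_mul_of_nonneg_right ?_ hδ.le)
        have : (M : ℝ) ≤ N := by exact_mod_cast hNM
        linarith
      exact (lift_unique h (convex_ball _ _).isPreconnected (mem_ball_self (by positivity)) (hU M)
        ((hU N).mono hsub) x hx').symm
  refine ⟨fun x => U ⌈‖x‖ / δ⌉₊ x, ?_, fun x _ => (hU _).unit x (hmem x),
    fun x _ => (hU _).ia x (hmem x), fun x _ => (hU _).ib x (hmem x), (hU _).one⟩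
  intro x _
  have h1 : ContDiffAt ℝ ∞ (U ⌈‖x‖ / δ⌉₊) x := (hU _).sm.contDiffAt (isOpen_ball.mem_nhds (hmem x))
  refine (h1.congr_of_eventuallyEq ?_).contDiffWithinAt
  filter_upwards [isOpen_ball.mem_nhds (hmem x)] with y hy
  exact heq _ y hy

/-- translations change the lift by a sign -/
theorem lift_per (h : Fr n) {U : R4 → ℍ[ℝ]} (hU : LiftOn n U univ) (k : Fin 4 → ℤ) :
    ∃ σ : ℝ, (σ = 1 ∨ σ = -1) ∧ ∀ x, U (fun i => x i + k i) = σ • U x := by
  have ht : Continuous (fun x : R4 => (fun i => x i + (k i : ℝ) : R4)) := by fun_prop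
  have hc : Continuous U := continuousOn_univ.1 hU.sm.continuousOn
  obtain ⟨σ, hσ, hall⟩ := sign_const h (U := U) (U' := fun x => U (fun i => x i + k i))
    isPreconnected_univ hc.continuousOn (hc.comp ht).continuousOn (fun x _ => hU.unit x trivial)
    (fun x _ => hU.unit _ trivial) (fun x _ => hU.ia x trivial)
    (fun x _ => by
      have := hU.ia (fun i => x i + k i) trivial
      rwa [h.per] at this)
    (fun x _ => hU.ib x trivial)
    (fun x _ => by
      have := hU.ib (fun i => x i + k i) trivial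
      rwa [h.per] at this)
  exact ⟨σ, hσ, fun x => hall x trivial⟩

end Vale.Agent.P247.H329
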