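import Vale.Agent.P247.H329.T2
import Vale.Agent.P247.H647.Sta

/-!
# P247, stage 2, package TRI: the oriented orthonormal frame of a matrix with positive determinant
-/

open scoped ContDiff Topology Quaternion
open Set Filter Metric

noncomputable section

namespace Vale.Agent.P247.H329

open Vale.Agent.P247.H74 Vale.Agent.P247.H574 Vale.Agent.P247.H647

/-- vectors of `ℝ³` -/
abbrev V3 : Type := Fin 3 → ℝ

/-- scalar product -/
def dt3 (a b : V3) : ℝ := a 0 * b 0 + a 1 * b 1 + a 2 * b 2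

/-- vector product -/
def cr3 (a b : V3) : V3 := ![a 1 * b 2 - a 2 * b 1, a 2 * b 0 - a 0 * b 2, a 0 * b 1 - a 1 * b 0]

/-- `(a × b) × a` -/
def tt3 (a b : V3) : V3 := dt3 a a • b - dt3 a b • a

theorem dt3_comm (a b : V3) : dt3 a b = dt3 b a := by simp only [dt3]; ring

theorem dt3_self_nonneg (a : V3) : 0 ≤ dt3 a a := by
  simp only [dt3]
  nlinarith [mul_self_nonneg (a 0), mul_self_nonneg (a 1), mul_self_nonneg (a 2)]

theorem dt3_smul (r : ℝ) (a b : V3) : dt3 (r • a) b = r * dt3 a b := by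
  simp only [dt3, Pi.smul_apply, smul_eq_mul]; ring

theorem dt3_smul' (r : ℝ) (a b : V3) : dt3 a (r • b) = r * dt3 a b := by
  simp only [dt3, Pi.smul_apply, smul_eq_mul]; ring

theorem dt3_add (a a' b : V3) : dt3 (a + a') b = dt3 a b + dt3 a' b := by
  simp only [dt3, Pi.add_apply]; ring

theorem lagrange (a b : V3) : dt3 (cr3 a b) (cr3 a b) = dt3 a a * dt3 b b - dt3 a b ^ 2 := by
  simp only [dt3, cr3, Matrix.cons_val_zero, Matrix.cons_val_one, Matrix.cons_val]; ring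

theorem tt3_dot (a b : V3) : dt3 a (tt3 a b) = 0 := by
  simp only [tt3, dt3, Pi.sub_apply, Pi.smul_apply, smul_eq_mul]; ring

theorem tt3_dot_b (a b : V3) : dt3 b (tt3 a b) = dt3 (cr3 a b) (cr3 a b) := by
  rw [lagrange]
  simp only [tt3, dt3, Pi.sub_apply, Pi.smul_apply, smul_eq_mul]; ring

theorem tt3_self (a b : V3) : dt3 (tt3 a b) (tt3 a b) = dt3 a a * dt3 (cr3 a b) (cr3 a b) := by
  rw [lagrange]
  simp only [tt3, dt3, Pi.sub_apply, Pi.smul_apply, smul_eq_mul]; ring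

/-- the determinant -/
def dd3 (a b c : V3) : ℝ := dt3 c (cr3 a b)

theorem cs3 (a b : V3) : dt3 a b ^ 2 ≤ dt3 a a * dt3 b b := by
  have h1 := dt3_self_nonneg (cr3 a b)
  rw [lagrange] at h1
  linarith

theorem pos_cr {a b c : V3} (h : 0 < dd3 a b c) : 0 < dt3 (cr3 a b) (cr3 a b) := by
  rcases (dt3_self_nonneg (cr3 a b)).lt_or_eq with h1 | h1
  · exact h1
  · have h2 := cs3 c (cr3 a b)
    rw [← h1, mul_zero] at h2
    have h3 : dd3 a b c ^ 2 ≤ 0 := h2
    nlinarith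

theorem pos_a {a b c : V3} (h : 0 < dd3 a b c) : 0 < dt3 a a := by
  rcases (dt3_self_nonneg a).lt_or_eq with h1 | h1
  · exact h1
  · have h2 := pos_cr h
    rw [lagrange, ← h1, zero_mul] at h2
    nlinarith [sq_nonneg (dt3 a b)]

theorem pos_t {a b c : V3} (h : 0 < dd3 a b c) : 0 < dt3 (tt3 a b) (tt3 a b) := by
  rw [tt3_self]
  exact mul_pos (pos_a h) (pos_cr h)

/-- the frame -/
def g0 (a : V3) : V3 := (Real.sqrt (dt3 a a))⁻¹ • a
def g1 (a b : V3) : V3 := (Real.sqrt (dt3 (tt3 a b) (tt3 a b)))⁻¹ • tt3 a b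
def g2 (a b : V3) : V3 := cr3 (g0 a) (g1 a b)

theorem unit_of {a : V3} (h : 0 < dt3 a a) :
    dt3 ((Real.sqrt (dt3 a a))⁻¹ • a) ((Real.sqrt (dt3 a a))⁻¹ • a) = 1 := by
  rw [dt3_smul, dt3_smul']
  have h1 : Real.sqrt (dt3 a a) * Real.sqrt (dt3 a a) = dt3 a a := Real.mul_self_sqrt h.le
  have h2 : Real.sqrt (dt3 a a) ≠ 0 := (Real.sqrt_pos.2 h).ne'
  field_simp
  rw [sq, h1]

theorem g00 {a b c : V3} (h : 0 < dd3 a b c) : dt3 (g0 a) (g0 a) = 1 := unit_of (pos_a h)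
theorem g11 {a b c : V3} (h : 0 < dd3 a b c) : dt3 (g1 a b) (g1 a b) = 1 := unit_of (pos_t h)
theorem g01 (a b : V3) : dt3 (g0 a) (g1 a b) = 0 := by
  rw [g0, g1, dt3_smul, dt3_smul', tt3_dot, mul_zero, mul_zero]
theorem g22 {a b c : V3} (h : 0 < dd3 a b c) : dt3 (g2 a b) (g2 a b) = 1 := by
  rw [g2, lagrange, g00 h, g11 h, g01]
  norm_num
theorem g02 (a b : V3) : dt3 (g0 a) (g2 a b) = 0 := by
  simp only [g2, dt3, cr3, Matrix.cons_val_zero, Matrix.cons_val_one, Matrix.cons_val]; ring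
theorem g12 (a b : V3) : dt3 (g1 a b) (g2 a b) = 0 := by
  simp only [g2, dt3, cr3, Matrix.cons_val_zero, Matrix.cons_val_one, Matrix.cons_val]; ring

theorem a_g0 {a b c : V3} (h : 0 < dd3 a b c) : 0 < dt3 a (g0 a) := by
  rw [g0, dt3_smul']
  exact mul_pos (inv_pos.2 (Real.sqrt_pos.2 (pos_a h))) (pos_a h)

theorem a_g1 (a b : V3) : dt3 a (g1 a b) = 0 := by
  rw [g1, dt3_smul', tt3_dot, mul_zero]

theorem b_g1 {a b c : V3} (h : 0 < dd3 a b c) : 0 < dt3 b (g1 a b) := by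
  rw [g1, dt3_smul', tt3_dot_b]
  exact mul_pos (inv_pos.2 (Real.sqrt_pos.2 (pos_t h))) (pos_cr h)

theorem g2_eq (a b : V3) : g2 a b = ((Real.sqrt (dt3 a a))⁻¹ *
    (Real.sqrt (dt3 (tt3 a b) (tt3 a b)))⁻¹ * dt3 a a) • cr3 a b := by
  funext i
  fin_cases i <;>
  · simp only [g2, g0, g1, cr3, tt3, Pi.smul_apply, Pi.sub_apply, smul_eq_mul, Fin.zero_eta,
      Fin.mk_one, Fin.reduceFinMk, Matrix.cons_val_zero, Matrix.cons_val_one, Matrix.cons_val]
    ring

theorem a_g2 (a b : V3) : dt3 a (g2 a b) = 0 := by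
  rw [g2_eq, dt3_smul']
  simp only [dt3, cr3, Matrix.cons_val_zero, Matrix.cons_val_one, Matrix.cons_val]; ring

theorem b_g2 (a b : V3) : dt3 b (g2 a b) = 0 := by
  rw [g2_eq, dt3_smul']
  simp only [dt3, cr3, Matrix.cons_val_zero, Matrix.cons_val_one, Matrix.cons_val]; ring

theorem c_g2 {a b c : V3} (h : 0 < dd3 a b c) : 0 < dt3 c (g2 a b) := by
  rw [g2_eq, dt3_smul']
  have h1 := inv_pos.2 (Real.sqrt_pos.2 (pos_a h))
  have h2 := inv_pos.2 (Real.sqrt_pos.2 (pos_t h))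
  exact mul_pos (mul_pos (mul_pos h1 h2) (pos_a h)) h

/-- a vector is never mapped to a negative multiple of its image in the frame -/
theorem no_anti {a b c : V3} (h : 0 < dd3 a b c) {u : V3} {t : ℝ} (ht : 0 ≤ t)
    (heq : u 0 • a + u 1 • b + u 2 • c = -(t • (u 0 • g0 a + u 1 • g1 a b + u 2 • g2 a b))) :
    u = 0 := by
  have key : ∀ w : V3, u 0 * dt3 a w + u 1 * dt3 b w + u 2 * dt3 c w =
      -(t * (u 0 * dt3 (g0 a) w + u 1 * dt3 (g1 a b) w + u 2 * dt3 (g2 a b) w)) := by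
    intro w
    have h1 := congrArg (fun z => dt3 z w) heq
    simp only [dt3_add, dt3_smul] at h1
    rw [h1, ← neg_one_smul ℝ, dt3_smul, dt3_smul, dt3_add, dt3_add, dt3_smul, dt3_smul, dt3_smul]
    ring
  have k2 := key (g2 a b)
  rw [a_g2, b_g2, g02, g12, g22 h] at k2
  have p2 := c_g2 h
  have u2 : u 2 = 0 := by
    have h1 : u 2 * (dt3 c (g2 a b) + t) = 0 := by linarith
    exact (mul_eq_zero.1 h1).resolve_right (by linarith)
  have k1 := key (g1 a b)
  rw [a_g1, g01, g11 h, u2] at k1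
  have p1 := b_g1 h
  have u1 : u 1 = 0 := by
    have h1 : u 1 * (dt3 b (g1 a b) + t) = 0 := by linarith
    exact (mul_eq_zero.1 h1).resolve_right (by linarith)
  have k0 := key (g0 a)
  rw [g00 h, u2, u1] at k0
  have p0 := a_g0 h
  have u0 : u 0 = 0 := by
    have h1 : u 0 * (dt3 a (g0 a) + t) = 0 := by linarith
    exact (mul_eq_zero.1 h1).resolve_right (by linarith)
  funext i
  fin_cases i
  · exact u0
  · exact u1
  · exact u2

/-- a vector as an imaginary quaternion -/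
def qv (a : V3) : ℍ[ℝ] := ⟨0, a 0, a 1, a 2⟩

theorem qv_re (a : V3) : (qv a).re = 0 := rfl
theorem qv_i (a : V3) : (qv a).imI = a 0 := rfl
theorem qv_j (a : V3) : (qv a).imJ = a 1 := rfl
theorem qv_k (a : V3) : (qv a).imK = a 2 := rfl

theorem qv_mul (a b : V3) : qv a * qv b = ((-dt3 a b : ℝ) : ℍ[ℝ]) + qv (cr3 a b) := by
  apply Quaternion.ext
  · rw [Quaternion.re_mul, Quaternion.re_add, Quaternion.re_coe]
    simp only [qv_re, qv_i, qv_j, qv_k, dt3]
    ring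
  · rw [Quaternion.imI_mul, Quaternion.imI_add, Quaternion.imI_coe]
    simp only [qv_re, qv_i, qv_j, qv_k, cr3, Matrix.cons_val_zero]
    ring
  · rw [Quaternion.imJ_mul, Quaternion.imJ_add, Quaternion.imJ_coe]
    simp only [qv_re, qv_i, qv_j, qv_k, cr3, Matrix.cons_val_one, Matrix.cons_val_zero]
    ring
  · rw [Quaternion.imK_mul, Quaternion.imK_add, Quaternion.imK_coe]
    simp only [qv_re, qv_i, qv_j, qv_k, cr3, Matrix.cons_val]
    ring

theorem qv_zero : qv 0 = 0 := by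
  apply Quaternion.ext <;> rfl

theorem qv_neg (a : V3) : qv (-a) = -qv a := by
  apply Quaternion.ext
  · rw [Quaternion.re_neg]; simp only [qv_re, neg_zero]
  · rw [Quaternion.imI_neg]; rfl
  · rw [Quaternion.imJ_neg]; rfl
  · rw [Quaternion.imK_neg]; rfl

theorem cr3_self (a : V3) : cr3 a a = 0 := by
  funext i
  fin_cases i <;> simp [cr3] <;> ring

theorem cr3_swap (a b : V3) : cr3 b a = -cr3 a b := by
  funext i
  fin_cases i <;> simp [cr3] <;> ring

theorem tri_of {a b : V3} (ha : dt3 a a = 1) (hb : dt3 b b = 1) (hab : dt3 a b = 0) :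
    Tri (qv a) (qv b) (qv (cr3 a b)) := by
  refine ⟨?_, ?_, ?_, ?_⟩
  · rw [qv_mul, ha, cr3_self, qv_zero]
    push_cast
    rw [add_zero]
  · rw [qv_mul, hb, cr3_self, qv_zero]
    push_cast
    rw [add_zero]
  · rw [qv_mul, hab]
    push_cast
    rw [neg_zero, zero_add]
  · rw [qv_mul, dt3_comm, hab, cr3_swap, qv_neg]
    push_cast
    rw [neg_zero, zero_add]

end Vale.Agent.P247.H329
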