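import Vale.Agent.P247.H329.T3

/-!
# P247, stage 2, package TRI: spinor algebra
-/

open scoped ContDiff Topology Quaternion
open Set Filter Metric

noncomputable section

namespace Vale.Agent.P247.H329

open Vale.Agent.P247.H74 Vale.Agent.P247.H574 Vale.Agent.P247.H647

theorem sp_ext {f g : Sp} (h0 : f 0 = g 0) (h1 : f 1 = g 1) : f = g := by
  ext i
  fin_cases i
  · exact h0
  · exact h1

theorem opM_apply (M : Matrix (Fin 2) (Fin 2) ℂ) (f : Sp) (i : Fin 2) :
    (opM M f) i = M i 0 * f 0 + M i 1 * f 1 := by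
  have h1 : (opM M f) i = ∑ j, M i j * f j := rfl
  rw [h1, Fin.sum_univ_two]

theorem pau0_0 (f : Sp) : (pau 0 f) 0 = f 1 := by simp [pau, opM_apply, pauM]
theorem pau0_1 (f : Sp) : (pau 0 f) 1 = f 0 := by simp [pau, opM_apply, pauM]
theorem pau1_0 (f : Sp) : (pau 1 f) 0 = -Complex.I * f 1 := by simp [pau, opM_apply, pauM]
theorem pau1_1 (f : Sp) : (pau 1 f) 1 = Complex.I * f 0 := by simp [pau, opM_apply, pauM]
theorem pau2_0 (f : Sp) : (pau 2 f) 0 = f 0 := by simp [pau, opM_apply, pauM]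
theorem pau2_1 (f : Sp) : (pau 2 f) 1 = -f 1 := by simp [pau, opM_apply, pauM]

/-- `v · σ` -/
def sgv (v : V3) : En := ∑ k, (v k : ℂ) • pau k

theorem sgv_sum (v : V3) (f : Sp) : ∑ k, (v k : ℂ) • pau k f = sgv v f := by
  rw [sgv, Fin.sum_univ_three, Fin.sum_univ_three]
  rfl

theorem sgv_0 (v : V3) (f : Sp) : (sgv v f) 0 =
    (v 0 : ℂ) * f 1 + (v 1 : ℂ) * (-Complex.I * f 1) + (v 2 : ℂ) * f 0 := by
  rw [← sgv_sum, Fin.sum_univ_three]
  simp [pau0_0, pau1_0, pau2_0]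

theorem sgv_1 (v : V3) (f : Sp) : (sgv v f) 1 =
    (v 0 : ℂ) * f 0 + (v 1 : ℂ) * (Complex.I * f 0) + (v 2 : ℂ) * (-f 1) := by
  rw [← sgv_sum, Fin.sum_univ_three]
  simp [pau0_1, pau1_1, pau2_1]

/-- the representation of the quaternions on spinors -/
def rep : ℍ[ℝ] →ₗ[ℝ] En where
  toFun q := (q.re : ℂ) • (1 : En) - Complex.I • ((q.imI : ℂ) • pau 0 + (q.imJ : ℂ) • pau 1 +
    (q.imK : ℂ) • pau 2)
  map_add' p q := by
    refine ContinuousLinearMap.ext fun f => ?_
    change ((p + q).re : ℂ) • f - Complex.I • (((p + q).imI : ℂ) • pau 0 f +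
      ((p + q).imJ : ℂ) • pau 1 f + ((p + q).imK : ℂ) • pau 2 f) = ((p.re : ℂ) • f -
      Complex.I • ((p.imI : ℂ) • pau 0 f + (p.imJ : ℂ) • pau 1 f + (p.imK : ℂ) • pau 2 f)) +
      ((q.re : ℂ) • f - Complex.I • ((q.imI : ℂ) • pau 0 f + (q.imJ : ℂ) • pau 1 f +
      (q.imK : ℂ) • pau 2 f))
    simp only [Quaternion.re_add, Quaternion.imI_add, Quaternion.imJ_add, Quaternion.imK_add,
      Complex.ofReal_add]
    module
  map_smul' r q := by
    simp only [Quaternion.re_smul, Quaternion.imI_smul, Quaternion.imJ_smul, Quaternion.imK_smul,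
      smul_eq_mul, Complex.ofReal_mul, RingHom.id_apply, ← Complex.coe_smul r, smul_sub, smul_add,
      smul_smul]
    congr 1
    rw [show Complex.I * ((r : ℂ) * q.imI) = r * (Complex.I * q.imI) by ring,
      show Complex.I * ((r : ℂ) * q.imJ) = r * (Complex.I * q.imJ) by ring,
      show Complex.I * ((r : ℂ) * q.imK) = r * (Complex.I * q.imK) by ring]

theorem rep_def (q : ℍ[ℝ]) (f : Sp) : rep q f = (q.re : ℂ) • f - Complex.I • ((q.imI : ℂ) • pau 0 f +
    (q.imJ : ℂ) • pau 1 f + (q.imK : ℂ) • pau 2 f) := rfl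

theorem rep_0 (q : ℍ[ℝ]) (f : Sp) : (rep q f) 0 = (q.re : ℂ) * f 0 - Complex.I *
    ((q.imI : ℂ) * f 1 + (q.imJ : ℂ) * (-Complex.I * f 1) + (q.imK : ℂ) * f 0) := by
  rw [rep_def]
  simp only [PiLp.sub_apply, PiLp.smul_apply, PiLp.add_apply, smul_eq_mul, pau0_0, pau1_0, pau2_0]

theorem rep_1 (q : ℍ[ℝ]) (f : Sp) : (rep q f) 1 = (q.re : ℂ) * f 1 - Complex.I *
    ((q.imI : ℂ) * f 0 + (q.imJ : ℂ) * (Complex.I * f 0) + (q.imK : ℂ) * (-f 1)) := by
  rw [rep_def]
  simp only [PiLp.sub_apply, PiLp.smul_apply, PiLp.add_apply, smul_eq_mul, pau0_1, pau1_1, pau2_1]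

theorem rep_mul (p q : ℍ[ℝ]) (f : Sp) : rep (p * q) f = rep p (rep q f) := by
  have hI : Complex.I * Complex.I = -1 := Complex.I_mul_I
  apply sp_ext
  · rw [rep_0, rep_0, rep_0, rep_1, Quaternion.re_mul, Quaternion.imI_mul, Quaternion.imJ_mul,
      Quaternion.imK_mul]
    push_cast
    linear_combination (norm := skip) (0 : ℂ) * hI
    ring_nf
    simp only [Complex.I_sq, Complex.I_pow_three, Complex.I_pow_four]
    ring
  · rw [rep_1, rep_1, rep_0, rep_1, Quaternion.re_mul, Quaternion.imI_mul, Quaternion.imJ_mul,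
      Quaternion.imK_mul]
    push_cast
    linear_combination (norm := skip) (0 : ℂ) * hI
    ring_nf
    simp only [Complex.I_sq, Complex.I_pow_three, Complex.I_pow_four]
    ring

theorem rep_one (f : Sp) : rep 1 f = f := by
  apply sp_ext
  · rw [rep_0]; simp
  · rw [rep_1]; simp

/-- `v · σ = i rep v` -/
theorem sgv_eq_rep (v : V3) (f : Sp) : sgv v f = Complex.I • rep (qv v) f := by
  have hI : Complex.I * Complex.I = -1 := Complex.I_mul_I
  apply sp_ext
  · rw [PiLp.smul_apply, smul_eq_mul, rep_0, sgv_0, qv_re, qv_i, qv_j, qv_k]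
    push_cast
    linear_combination ((v 0 : ℂ) * f 1 + (v 1 : ℂ) * (-Complex.I * f 1) + (v 2 : ℂ) * f 0) * hI
  · rw [PiLp.smul_apply, smul_eq_mul, rep_1, sgv_1, qv_re, qv_i, qv_j, qv_k]
    push_cast
    linear_combination ((v 0 : ℂ) * f 0 + (v 1 : ℂ) * (Complex.I * f 0) - (v 2 : ℂ) * f 1) * hI

theorem sgv_add (a b : V3) (f : Sp) : sgv (a + b) f = sgv a f + sgv b f := by
  apply sp_ext
  · rw [PiLp.add_apply, sgv_0, sgv_0, sgv_0]
    simp only [Pi.add_apply]
    push_cast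
    ring
  · rw [PiLp.add_apply, sgv_1, sgv_1, sgv_1]
    simp only [Pi.add_apply]
    push_cast
    ring

theorem sgv_smul (t : ℝ) (a : V3) (f : Sp) : sgv (t • a) f = (t : ℂ) • sgv a f := by
  apply sp_ext
  · rw [PiLp.smul_apply, sgv_0, sgv_0]
    simp only [Pi.smul_apply, smul_eq_mul]
    push_cast
    ring
  · rw [PiLp.smul_apply, sgv_1, sgv_1]
    simp only [Pi.smul_apply, smul_eq_mul]
    push_cast
    ring

theorem sgv_neg (a : V3) (f : Sp) : sgv (-a) f = -sgv a f := by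
  have h1 : -a = (-1 : ℝ) • a := by rw [neg_one_smul]
  rw [h1, sgv_smul]
  push_cast
  rw [neg_one_smul]

theorem sgv_sq (a : V3) (f : Sp) : sgv a (sgv a f) = ((dt3 a a : ℝ) : ℂ) • f := by
  have hI : Complex.I ^ 2 = -1 := Complex.I_sq
  apply sp_ext
  · rw [PiLp.smul_apply, sgv_0, sgv_0, sgv_1, dt3, smul_eq_mul]
    push_cast
    linear_combination (-(a 1 : ℂ) ^ 2 * f 0) * hI
  · rw [PiLp.smul_apply, sgv_1, sgv_0, sgv_1, dt3, smul_eq_mul]
    push_cast
    linear_combination (-(a 1 : ℂ) ^ 2 * f 1) * hI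

theorem len_sq (a : V3) : len a * len a = dt3 a a := by
  rw [len, Fin.sum_univ_three, Real.mul_self_sqrt (by positivity), dt3]
  ring

theorem len_eq (a : V3) : len a = Real.sqrt (dt3 a a) := by
  rw [len, Fin.sum_univ_three, dt3]
  congr 1
  ring

theorem len_nonneg (a : V3) : 0 ≤ len a := Real.sqrt_nonneg _

theorem len_neg (a : V3) : len (-a) = len a := by
  simp [len]

theorem len_pos {a : V3} (h : a ≠ 0) : 0 < len a := by
  rw [len_eq]
  apply Real.sqrt_pos.2
  rcases (dt3_self_nonneg a).lt_or_eq with h1 | h1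
  · exact h1
  · exfalso
    apply h
    have h2 : a 0 * a 0 + a 1 * a 1 + a 2 * a 2 = 0 := h1.symm
    funext i
    fin_cases i
    · have : a 0 * a 0 = 0 := by nlinarith [mul_self_nonneg (a 0), mul_self_nonneg (a 1), mul_self_nonneg (a 2)]
      exact mul_self_eq_zero.1 this
    · have : a 1 * a 1 = 0 := by nlinarith [mul_self_nonneg (a 0), mul_self_nonneg (a 1), mul_self_nonneg (a 2)]
      exact mul_self_eq_zero.1 this
    · have : a 2 * a 2 = 0 := by nlinarith [mul_self_nonneg (a 0), mul_self_nonneg (a 1), mul_self_nonneg (a 2)]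
      exact mul_self_eq_zero.1 this

/-- the projection on the eigenline of `a`, unnormalised -/
def prj (a : V3) (y : Sp) : Sp := (len a : ℂ) • y + sgv a y

theorem sgv_prj (a : V3) (y : Sp) : sgv a (prj a y) = (len a : ℂ) • prj a y := by
  rw [prj, map_add, map_smul, sgv_sq, smul_add, smul_smul, ← Complex.ofReal_mul, len_sq, add_comm]

theorem prj_ne {a b : V3} {y : Sp} (hy : y ≠ 0) (hby : sgv b y = y)
    (ha : ¬ ∃ t : ℝ, 0 ≤ t ∧ a = -(t • b)) : prj a y ≠ 0 := by
  intro h0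
  apply ha
  refine ⟨len a, len_nonneg a, ?_⟩
  have h1 : sgv (a + len a • b) y = 0 := by
    rw [sgv_add, sgv_smul, hby, add_comm]
    exact h0
  have h2 := sgv_sq (a + len a • b) y
  rw [h1, map_zero] at h2
  have h3 : a + len a • b = 0 := by
    by_contra hne
    have h4 := len_pos hne
    have h5 : dt3 (a + len a • b) (a + len a • b) ≠ 0 := by
      rw [← len_sq]
      positivity
    rcases smul_eq_zero.1 h2.symm with h6 | h6
    · exact h5 (by exact_mod_cast h6)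
    · exact hy h6
  exact eq_neg_of_add_eq_zero_left h3

/-- eigenvectors exist -/
theorem exists_eig {a : V3} (ha : dt3 a a = 1) : ∃ s : Sp, ‖s‖ = 1 ∧ sgv a s = s := by
  have h1 : ∃ s : Sp, s ≠ 0 ∧ sgv a s = s := by
    have key : ∀ y : Sp, sgv a (y + sgv a y) = y + sgv a y := by
      intro y
      rw [map_add, sgv_sq, ha]
      push_cast
      rw [one_smul, add_comm]
    by_cases h : (!₂[1, 0] : Sp) + sgv a (!₂[1, 0] : Sp) = 0
    · refine ⟨(!₂[0, 1] : Sp) + sgv a (!₂[0, 1] : Sp), ?_, key _⟩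
      intro h'
      have e1 := congrArg (fun f : Sp => f 0) h
      have e2 := congrArg (fun f : Sp => f 1) h'
      simp only [PiLp.add_apply, sgv_0, sgv_1] at e1 e2
      simp at e1 e2
      have e3 : (2 : ℂ) = 0 := by linear_combination e1 + e2
      norm_num at e3
    · exact ⟨_, h, key _⟩
  obtain ⟨s, hs, hsa⟩ := h1
  have hn : ‖s‖ ≠ 0 := norm_ne_zero_iff.2 hs
  refine ⟨((‖s‖⁻¹ : ℝ) : ℂ) • s, ?_, ?_⟩
  · rw [norm_smul, Complex.norm_real, norm_inv, norm_norm, inv_mul_cancel₀ hn]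
  · rw [map_smul, hsa]

/-- conjugation -/
def jS : Sp →L[ℝ] Sp := LinearMap.toContinuousLinearMap
  { toFun := fun f => !₂[-(starRingEnd ℂ) (f 1), (starRingEnd ℂ) (f 0)]
    map_add' := fun f g => by
      apply sp_ext
      · simp [add_comm]
      · simp
    map_smul' := fun r f => by
      apply sp_ext
      · simp
      · simp }

theorem jS_0 (f : Sp) : (jS f) 0 = -(starRingEnd ℂ) (f 1) := rfl
theorem jS_1 (f : Sp) : (jS f) 1 = (starRingEnd ℂ) (f 0) := rfl

theorem jS_sgv (a : V3) (f : Sp) : sgv a (jS f) = -jS (sgv a f) := by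
  apply sp_ext
  · rw [PiLp.neg_apply, sgv_0, jS_0, jS_0, jS_1, sgv_1]
    simp only [map_add, map_mul, map_neg, Complex.conj_ofReal, Complex.conj_I]
    ring
  · rw [PiLp.neg_apply, sgv_1, jS_1, jS_0, jS_1, sgv_0]
    simp only [map_add, map_mul, map_neg, Complex.conj_ofReal, Complex.conj_I]
    ring

theorem jS_real (r : ℝ) (f : Sp) : jS ((r : ℂ) • f) = (r : ℂ) • jS f := by
  rw [Complex.coe_smul, map_smul, Complex.coe_smul]

theorem sp_norm_sq (f : Sp) : ‖f‖ ^ 2 = ‖f 0‖ ^ 2 + ‖f 1‖ ^ 2 := by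
  rw [EuclideanSpace.norm_sq_eq, Fin.sum_univ_two]

theorem jS_norm (f : Sp) : ‖jS f‖ = ‖f‖ := by
  have h1 : ‖jS f‖ ^ 2 = ‖f‖ ^ 2 := by
    rw [sp_norm_sq, sp_norm_sq, jS_0, jS_1, norm_neg, RCLike.norm_conj, RCLike.norm_conj]
    ring
  exact (pow_left_inj₀ (norm_nonneg _) (norm_nonneg _) two_ne_zero).1 h1

end Vale.Agent.P247.H329
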