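import Vale.Agent.P247.H329.T4

/-!
# P247, stage 2, package TRI: bounds uniform in a compact set of parameters
-/

open scoped ContDiff Topology Quaternion
open Set Filter Metric

noncomputable section

namespace Vale.Agent.P247.H329

open Vale.Agent.P247.H74 Vale.Agent.P247.H574 Vale.Agent.P247.H647

section unif

variable {P : Type*} [NormedAddCommGroup P] [NormedSpace ℝ P]
  {E : Type*} [NormedAddCommGroup E] [NormedSpace ℝ E]
  {E' : Type*} [NormedAddCommGroup E'] [NormedSpace ℝ E']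

/-- the derivative in the second variable -/
def sl (G : P × R4 → E) (q : P × R4) : R4 →L[ℝ] E := fderiv ℝ (fun y => G (q.1, y)) q.2

theorem sl_eq {G : P × R4 → E} {q : P × R4} (h : DifferentiableAt ℝ G q) :
    sl G q = (fderiv ℝ G q).comp (ContinuousLinearMap.inr ℝ P R4) := by
  have h1 : HasFDerivAt (fun y : R4 => (q.1, y)) (ContinuousLinearMap.inr ℝ P R4) q.2 :=
    hasFDerivAt_prodMk_right q.1 q.2
  have h2 : HasFDerivAt G (fderiv ℝ G q) ((fun y : R4 => (q.1, y)) q.2) := h.hasFDerivAt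
  exact (h2.comp q.2 h1).fderiv

/-- jointly smooth near `K × ℝ⁴` and periodic -/
structure UB (K : Set P) (W : Set (P × R4)) (G : P × R4 → E) : Prop where
  op : IsOpen W
  sub : ∀ κ ∈ K, ∀ x : R4, (κ, x) ∈ W
  sm : ContDiffOn ℝ ∞ G W
  per : ∀ κ ∈ K, Per4 fun x => G (κ, x)

variable {K : Set P} {W : Set (P × R4)} {G : P × R4 → E}

theorem UB.at (h : UB K W G) {κ : P} (hκ : κ ∈ K) (x : R4) : ContDiffAt ℝ ∞ G (κ, x) :=
  h.sm.contDiffAt (h.op.mem_nhds (h.sub κ hκ x))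

theorem UB.contDiff (h : UB K W G) {κ : P} (hκ : κ ∈ K) : ContDiff ℝ ∞ fun x => G (κ, x) :=
  contDiff_iff_contDiffAt.2 fun x => (h.at hκ x).comp x (contDiff_prodMk_right κ).contDiffAt

theorem UB.deriv (h : UB K W G) : UB K W (sl G) := by
  refine ⟨h.op, h.sub, ?_, fun κ hκ => ?_⟩
  · have h1 : ContDiffOn ℝ ∞ (fderiv ℝ G) W := h.sm.fderiv_of_isOpen h.op (by simp)
    have h2 : ContDiffOn ℝ ∞ (fun q => (fderiv ℝ G q).comp (ContinuousLinearMap.inr ℝ P R4)) W :=
      h1.clm_comp contDiffOn_const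
    refine h2.congr fun q hq => ?_
    exact sl_eq ((h.sm.contDiffAt (h.op.mem_nhds hq)).differentiableAt (by simp))
  · intro n x
    exact H74.K2H.fderiv_per (g := fun y => G (κ, y)) (fun n x => h.per κ hκ n x) n x

theorem UB.bound (hK : IsCompact K) (h : UB K W G) :
    ∃ M : ℝ, ∀ κ ∈ K, ∀ x, ‖G (κ, x)‖ ≤ M := by
  have hc : IsCompact (K ×ˢ (Icc (0 : R4) 1)) := hK.prod isCompact_Icc
  have hcont : ContinuousOn G (K ×ˢ (Icc (0 : R4) 1)) := fun q hq =>
    ((h.at hq.1 q.2).continuousAt).continuousWithinAt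
  obtain ⟨M, hM⟩ := hc.exists_bound_of_continuousOn hcont
  refine ⟨M, fun κ hκ x => ?_⟩
  have h1 := h.per κ hκ (fun i => -⌊x i⌋) x
  simp only at h1
  rw [← h1]
  refine hM _ ⟨hκ, fun i => ?_, fun i => ?_⟩
  · have := Int.floor_le (x i)
    simp only [tr, Pi.zero_apply]
    push_cast
    linarith
  · have := (Int.lt_floor_add_one (x i)).le
    simp only [tr, Pi.one_apply]
    push_cast
    linarith

theorem UB.bd (hK : IsCompact K) (h : UB K W G) :
    ∃ M : ℝ, ∀ κ ∈ K, Bd M (fun x => G (κ, x)) ∧ Bd M (fderiv ℝ fun x => G (κ, x)) := by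
  obtain ⟨M₀, h₀⟩ := h.bound hK
  obtain ⟨M₁, h₁⟩ := h.deriv.bound hK
  obtain ⟨M₂, h₂⟩ := h.deriv.deriv.bound hK
  obtain ⟨M₃, h₃⟩ := h.deriv.deriv.deriv.bound hK
  have m0 : M₀ ≤ max (max M₀ M₁) (max M₂ M₃) := (le_max_left _ _).trans (le_max_left _ _)
  have m1 : M₁ ≤ max (max M₀ M₁) (max M₂ M₃) := (le_max_right _ _).trans (le_max_left _ _)
  have m2 : M₂ ≤ max (max M₀ M₁) (max M₂ M₃) := (le_max_left _ _).trans (le_max_right _ _)
  have m3 : M₃ ≤ max (max M₀ M₁) (max M₂ M₃) := (le_max_right _ _).trans (le_max_right _ _)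
  exact ⟨max (max M₀ M₁) (max M₂ M₃), fun κ hκ =>
    ⟨fun x => ⟨(h₀ κ hκ x).trans m0, (h₁ κ hκ x).trans m1, (h₂ κ hκ x).trans m2⟩,
      fun x => ⟨(h₁ κ hκ x).trans m1, (h₂ κ hκ x).trans m2, (h₃ κ hκ x).trans m3⟩⟩⟩

theorem Bd.mono {M M' : ℝ} {g : R4 → E} (h : Bd M g) (hM : M ≤ M') : Bd M' g := fun x =>
  ⟨(h x).1.trans hM, (h x).2.1.trans hM, (h x).2.2.trans hM⟩

theorem UB.clm (h : UB K W G) (L : E →L[ℝ] E') : UB K W (fun q => L (G q)) :=
  ⟨h.op, h.sub, L.contDiff.comp_contDiffOn h.sm, fun κ hκ n x => by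
    have := h.per κ hκ n x
    simp only at this ⊢
    rw [this]⟩

end unif

/-! ## Smoothness of determinants, adjugates and inverses -/

section det

variable {P : Type*} [NormedAddCommGroup P] [NormedSpace ℝ P] {m : ℕ}

theorem contDiff_det {M : P → Matrix (Fin m) (Fin m) ℝ}
    (h : ∀ i j, ContDiff ℝ ∞ fun x => M x i j) : ContDiff ℝ ∞ fun x => (M x).det := by
  simp only [Matrix.det_apply]
  exact ContDiff.sum fun σ _ => (contDiff_prod fun i _ => h _ _).const_smul _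

theorem contDiff_adj {M : P → Matrix (Fin m) (Fin m) ℝ}
    (h : ∀ i j, ContDiff ℝ ∞ fun x => M x i j) (i j : Fin m) :
    ContDiff ℝ ∞ fun x => (M x).adjugate i j := by
  simp only [Matrix.adjugate_apply]
  refine contDiff_det fun a b => ?_
  simp only [Matrix.updateRow_apply]
  split_ifs
  · exact contDiff_const
  · exact h a b

theorem contDiff_inv3 {M : P → Matrix (Fin m) (Fin m) ℝ}
    (h : ∀ i j, ContDiff ℝ ∞ fun x => M x i j) (hd : ∀ x, (M x).det ≠ 0) (i j : Fin m) :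
    ContDiff ℝ ∞ fun x => (M x)⁻¹ i j := by
  have h1 : (fun x => (M x)⁻¹ i j) = fun x => ((M x).det)⁻¹ * (M x).adjugate i j := by
    funext x
    rw [Matrix.inv_def, Ring.inverse_eq_inv']
    rfl
  rw [h1]
  exact ((contDiff_det h).inv hd).mul (contDiff_adj h i j)

end det

end Vale.Agent.P247.H329
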