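import Vale.Agent.P247.H329.T5

/-!
# P247, stage 2, package TRI: the one-form `θ`
-/

open scoped ContDiff Topology Quaternion
open Set Filter Metric

noncomputable section

namespace Vale.Agent.P247.H329

open Vale.Agent.P247.H74 Vale.Agent.P247.H574 Vale.Agent.P247.H647

theorem sig0 (f : Sp) : sig 0 f = f := by
  apply sp_ext <;> simp [sig, opM_apply, sigM]

theorem sig_succ (k : Fin 3) (f : Sp) : sig k.succ f = Complex.I • pau k f := by
  have h1 : sigM k.succ = Complex.I • pauM k := by fin_cases k <;> rfl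
  apply sp_ext
  · rw [PiLp.smul_apply, sig, pau, opM_apply, opM_apply, h1]
    simp only [Matrix.smul_apply, smul_eq_mul]
    ring
  · rw [PiLp.smul_apply, sig, pau, opM_apply, opM_apply, h1]
    simp only [Matrix.smul_apply, smul_eq_mul]
    ring

theorem sig1_0 (f : Sp) : (sig 1 f) 0 = Complex.I * f 1 := by
  rw [show (1 : Fin 4) = Fin.succ 0 from rfl, sig_succ, PiLp.smul_apply, pau0_0, smul_eq_mul]
theorem sig1_1 (f : Sp) : (sig 1 f) 1 = Complex.I * f 0 := by
  rw [show (1 : Fin 4) = Fin.succ 0 from rfl, sig_succ, PiLp.smul_apply, pau0_1, smul_eq_mul]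
theorem sig2_0 (f : Sp) : (sig 2 f) 0 = f 1 := by
  rw [show (2 : Fin 4) = Fin.succ 1 from rfl, sig_succ, PiLp.smul_apply, pau1_0, smul_eq_mul]
  linear_combination (-f 1) * Complex.I_mul_I
theorem sig2_1 (f : Sp) : (sig 2 f) 1 = -f 0 := by
  rw [show (2 : Fin 4) = Fin.succ 1 from rfl, sig_succ, PiLp.smul_apply, pau1_1, smul_eq_mul]
  linear_combination (f 0) * Complex.I_mul_I
theorem sig3_0 (f : Sp) : (sig 3 f) 0 = Complex.I * f 0 := by
  rw [show (3 : Fin 4) = Fin.succ 2 from rfl, sig_succ, PiLp.smul_apply, pau2_0, smul_eq_mul]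
theorem sig3_1 (f : Sp) : (sig 3 f) 1 = -Complex.I * f 1 := by
  rw [show (3 : Fin 4) = Fin.succ 2 from rfl, sig_succ, PiLp.smul_apply, pau2_1, smul_eq_mul]
  ring

/-- the coordinates of `y` in the real basis `i σ_c f`, times `|f|²` -/
def zr (f y : Sp) : Fin 4 → ℝ :=
  ![((starRingEnd ℂ) (f 0) * y 0).im + ((starRingEnd ℂ) (f 1) * y 1).im,
    -((starRingEnd ℂ) (f 1) * y 0).re - ((starRingEnd ℂ) (f 0) * y 1).re,
    ((starRingEnd ℂ) (f 1) * y 0).im - ((starRingEnd ℂ) (f 0) * y 1).im,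
    -((starRingEnd ℂ) (f 0) * y 0).re + ((starRingEnd ℂ) (f 1) * y 1).re]

theorem zr_spec (f y : Sp) :
    ∑ c, (Complex.I * (zr f y c : ℂ)) • sig c f = ((‖f‖ ^ 2 : ℝ) : ℂ) • y := by
  have hn : ‖f‖ ^ 2 = (f 0).re ^ 2 + (f 0).im ^ 2 + ((f 1).re ^ 2 + (f 1).im ^ 2) := by
    rw [sp_norm_sq, Complex.sq_norm, Complex.sq_norm, Complex.normSq_apply, Complex.normSq_apply]
    ring
  rw [Fin.sum_univ_four]
  apply sp_ext
  · simp only [PiLp.add_apply, PiLp.smul_apply, smul_eq_mul, sig0, sig1_0, sig2_0, sig3_0, zr,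
      Matrix.cons_val_zero, Matrix.cons_val_one, Matrix.cons_val]
    rw [hn]
    apply Complex.ext
    · simp only [Complex.add_re, Complex.mul_re, Complex.mul_im, Complex.ofReal_re,
        Complex.ofReal_im, Complex.I_re, Complex.I_im, Complex.conj_re, Complex.conj_im]
      ring
    · simp only [Complex.add_im, Complex.mul_re, Complex.mul_im, Complex.ofReal_re,
        Complex.ofReal_im, Complex.I_re, Complex.I_im, Complex.conj_re, Complex.conj_im]
      ring
  · simp only [PiLp.add_apply, PiLp.smul_apply, smul_eq_mul, sig0, sig1_1, sig2_1, sig3_1, zr,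
      Matrix.cons_val_zero, Matrix.cons_val_one, Matrix.cons_val]
    rw [hn]
    apply Complex.ext
    · simp only [Complex.add_re, Complex.mul_re, Complex.mul_im, Complex.ofReal_re, Complex.neg_re,
        Complex.neg_im, Complex.ofReal_im, Complex.I_re, Complex.I_im, Complex.conj_re,
        Complex.conj_im]
      ring
    · simp only [Complex.add_im, Complex.mul_re, Complex.mul_im, Complex.ofReal_re, Complex.neg_re,
        Complex.neg_im, Complex.ofReal_im, Complex.I_re, Complex.I_im, Complex.conj_re,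
        Complex.conj_im]
      ring

section smooth

variable {X : Type*} [NormedAddCommGroup X] [NormedSpace ℝ X] {W : Set X} {f g : X → Sp}

theorem cd_coord (hf : ContDiffOn ℝ ∞ f W) (i : Fin 2) : ContDiffOn ℝ ∞ (fun q => f q i) W :=
  (((EuclideanSpace.proj i : Sp →L[ℂ] ℂ).restrictScalars ℝ).contDiff).comp_contDiffOn hf

theorem cd_conj {h : X → ℂ} (hh : ContDiffOn ℝ ∞ h W) :
    ContDiffOn ℝ ∞ (fun q => (starRingEnd ℂ) (h q)) W :=
  Complex.conjCLE.contDiff.comp_contDiffOn hh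

theorem cd_re {h : X → ℂ} (hh : ContDiffOn ℝ ∞ h W) : ContDiffOn ℝ ∞ (fun q => (h q).re) W :=
  Complex.reCLM.contDiff.comp_contDiffOn hh

theorem cd_im {h : X → ℂ} (hh : ContDiffOn ℝ ∞ h W) : ContDiffOn ℝ ∞ (fun q => (h q).im) W :=
  Complex.imCLM.contDiff.comp_contDiffOn hh

theorem cd_zr (hf : ContDiffOn ℝ ∞ f W) (hg : ContDiffOn ℝ ∞ g W) (c : Fin 4) :
    ContDiffOn ℝ ∞ (fun q => zr (f q) (g q) c) W := by
  have h : ∀ i j, ContDiffOn ℝ ∞ (fun q => (starRingEnd ℂ) (f q i) * g q j) W := fun i j =>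
    (cd_conj (cd_coord hf i)).mul (cd_coord hg j)
  fin_cases c
  · exact (cd_im (h 0 0)).add (cd_im (h 1 1))
  · exact (cd_re (h 1 0)).neg.sub (cd_re (h 0 1))
  · exact (cd_im (h 1 0)).sub (cd_im (h 0 1))
  · exact (cd_re (h 0 0)).neg.add (cd_re (h 1 1))

end smooth

/-! ## The dual coframe -/

variable {D : Data} (Q : Quat D)

/-- the matrix of the frame -/
def bM (x : R4) : Matrix (Fin 4) (Fin 4) ℝ := Matrix.of fun i a => Q.b a x i

/-- the dual coframe -/
def cof (x : R4) (c : Fin 4) : R4 →L[ℝ] ℝ :=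
  ∑ i, (bM Q x).adjugate c i • (ContinuousLinearMap.proj i : R4 →L[ℝ] ℝ)

theorem cof_b (x : R4) (c a : Fin 4) : cof Q x c (Q.b a x) = if c = a then 1 else 0 := by
  have h1 : (bM Q x).adjugate * bM Q x = 1 := by
    rw [Matrix.adjugate_mul, show (bM Q x).det = 1 from Q.b_det x, one_smul]
  have h2 := congrFun (congrFun h1 c) a
  rw [Matrix.mul_apply, Matrix.one_apply] at h2
  rw [← h2, cof]
  simp [bM, _root_.sum_apply]

theorem contDiff_b (a i : Fin 4) : ContDiff ℝ ∞ fun x => Q.b a x i :=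
  (contDiff_apply ℝ ℝ i).comp (Q.b_smooth a)

theorem contDiff_cof (c : Fin 4) : ContDiff ℝ ∞ fun x => cof Q x c := by
  simp only [cof]
  refine ContDiff.sum fun i _ => ?_
  have h1 : ContDiff ℝ ∞ fun x => (bM Q x).adjugate c i :=
    contDiff_adj (fun i a => contDiff_b Q a i) c i
  exact h1.smul contDiff_const

theorem cof_per (c : Fin 4) (n : Fin 4 → ℤ) (x : R4) : cof Q (tr n x) c = cof Q x c := by
  have h1 : bM Q (tr n x) = bM Q x := by
    ext i a
    simp only [bM, Matrix.of_apply]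
    rw [Q.b_per a n x]
  rw [cof, cof, h1]

end Vale.Agent.P247.H329
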