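import Vale.Agent.P247.H329.T6

/-!
# P247, stage 2, package TRI: the eigenspinor
-/

open scoped ContDiff Topology Quaternion
open Set Filter Metric

noncomputable section

namespace Vale.Agent.P247.H329

open Vale.Agent.P247.H74 Vale.Agent.P247.H574 Vale.Agent.P247.H647

/-! ## Periodicity from generators -/

theorem tr_add (m n : Fin 4 → ℤ) (x : R4) : tr (m + n) x = tr m (tr n x) := by
  funext i
  simp only [tr, Pi.add_apply]
  push_cast
  ring

theorem tr_zero (x : R4) : tr 0 x = x := by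
  funext i
  simp [tr]

theorem per4_of_gen {E : Type*} {g : R4 → E}
    (h : ∀ (i : Fin 4) (x : R4), g (tr (Pi.single i 1) x) = g x) : Per4 g := by
  let H : AddSubgroup (Fin 4 → ℤ) :=
    { carrier := {n | ∀ x, g (tr n x) = g x}
      add_mem' := fun {a b} ha hb x => by rw [tr_add, ha, hb]
      zero_mem' := fun x => by rw [tr_zero]
      neg_mem' := fun {a} ha x => by
        have h1 := ha (tr (-a) x)
        rw [← tr_add, add_neg_cancel, tr_zero] at h1
        exact h1.symm }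
  intro n x
  have h1 : n ∈ H := by
    have h2 : n = ∑ i, n i • (Pi.single i (1 : ℤ) : Fin 4 → ℤ) := by
      funext j
      simp [Finset.sum_apply, Pi.single_apply]
    rw [h2]
    exact AddSubgroup.sum_mem _ fun i _ => AddSubgroup.zsmul_mem _ (show _ ∈ H from h i) _
  exact h1 x

/-! ## Smoothness -/

section smooth

variable {X : Type*} [NormedAddCommGroup X] [NormedSpace ℝ X] {a b : X → V3}

theorem cd_dt3 {x : X} (ha : ContDiffAt ℝ ∞ a x) (hb : ContDiffAt ℝ ∞ b x) :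
    ContDiffAt ℝ ∞ (fun x => dt3 (a x) (b x)) x := by
  have ha' : ∀ i, ContDiffAt ℝ ∞ (fun x => a x i) x := fun i => contDiffAt_pi.1 ha i
  have hb' : ∀ i, ContDiffAt ℝ ∞ (fun x => b x i) x := fun i => contDiffAt_pi.1 hb i
  exact (((ha' 0).mul (hb' 0)).add ((ha' 1).mul (hb' 1))).add ((ha' 2).mul (hb' 2))

theorem cd_cr3 {x : X} (ha : ContDiffAt ℝ ∞ a x) (hb : ContDiffAt ℝ ∞ b x) :
    ContDiffAt ℝ ∞ (fun x => cr3 (a x) (b x)) x := by
  have ha' : ∀ i, ContDiffAt ℝ ∞ (fun x => a x i) x := fun i => contDiffAt_pi.1 ha i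
  have hb' : ∀ i, ContDiffAt ℝ ∞ (fun x => b x i) x := fun i => contDiffAt_pi.1 hb i
  refine contDiffAt_pi.2 fun i => ?_
  fin_cases i
  · exact ((ha' 1).mul (hb' 2)).sub ((ha' 2).mul (hb' 1))
  · exact ((ha' 2).mul (hb' 0)).sub ((ha' 0).mul (hb' 2))
  · exact ((ha' 0).mul (hb' 1)).sub ((ha' 1).mul (hb' 0))

theorem cd_tt3 {x : X} (ha : ContDiffAt ℝ ∞ a x) (hb : ContDiffAt ℝ ∞ b x) :
    ContDiffAt ℝ ∞ (fun x => tt3 (a x) (b x)) x :=
  ((cd_dt3 ha ha).smul hb).sub ((cd_dt3 ha hb).smul ha)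

theorem cd_g0 {x : X} (ha : ContDiffAt ℝ ∞ a x) (h : 0 < dt3 (a x) (a x)) :
    ContDiffAt ℝ ∞ (fun x => g0 (a x)) x :=
  (((cd_dt3 ha ha).sqrt h.ne').inv (Real.sqrt_pos.2 h).ne').smul ha

theorem cd_g1 {x : X} (ha : ContDiffAt ℝ ∞ a x) (hb : ContDiffAt ℝ ∞ b x)
    (h : 0 < dt3 (tt3 (a x) (b x)) (tt3 (a x) (b x))) :
    ContDiffAt ℝ ∞ (fun x => g1 (a x) (b x)) x :=
  (((cd_dt3 (cd_tt3 ha hb) (cd_tt3 ha hb)).sqrt h.ne').inv (Real.sqrt_pos.2 h).ne').smul
    (cd_tt3 ha hb)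

theorem cd_len {x : X} (ha : ContDiffAt ℝ ∞ a x) (h : a x ≠ 0) :
    ContDiffAt ℝ ∞ (fun x => len (a x)) x := by
  have h1 : (fun x => len (a x)) = fun x => Real.sqrt (dt3 (a x) (a x)) := by
    funext x
    exact len_eq _
  rw [h1]
  have h2 := len_pos h
  have h3 : dt3 (a x) (a x) ≠ 0 := by
    rw [← len_sq]
    positivity
  exact (cd_dt3 ha ha).sqrt h3

/-- `qv` as a linear map -/
def qvL : V3 →L[ℝ] ℍ[ℝ] := LinearMap.toContinuousLinearMap
  { toFun := qv
    map_add' := fun a b => by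
      apply Quaternion.ext
      · rw [Quaternion.re_add]; simp [qv_re]
      · rfl
      · rfl
      · rfl
    map_smul' := fun r a => by
      apply Quaternion.ext
      · rw [Quaternion.re_smul]; simp [qv_re]
      · rfl
      · rfl
      · rfl }

theorem qvL_apply (a : V3) : qvL a = qv a := rfl

end smooth

/-! ## The frame of a smooth family of bases -/

/-- a smooth periodic positively oriented family of bases -/
structure Bas (s : Fin 3 → R4 → V3) : Prop where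
  sm : ∀ j, ContDiff ℝ ∞ (s j)
  per : ∀ j, Per4 (s j)
  pos : ∀ x, 0 < dd3 (s 0 x) (s 1 x) (s 2 x)

variable {s : Fin 3 → R4 → V3}

/-- the orthonormal frame -/
def nn (s : Fin 3 → R4 → V3) (j : Fin 3) (x : R4) : V3 :=
  ![g0 (s 0 x), g1 (s 0 x) (s 1 x), g2 (s 0 x) (s 1 x)] j

theorem nn0 (x : R4) : nn s 0 x = g0 (s 0 x) := rfl
theorem nn1 (x : R4) : nn s 1 x = g1 (s 0 x) (s 1 x) := rfl
theorem nn2 (x : R4) : nn s 2 x = cr3 (nn s 0 x) (nn s 1 x) := rfl

theorem Bas.nn_sm (h : Bas s) (j : Fin 3) : ContDiff ℝ ∞ (nn s j) := by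
  have h0 : ContDiff ℝ ∞ (nn s 0) := contDiff_iff_contDiffAt.2 fun x =>
    cd_g0 (h.sm 0).contDiffAt (pos_a (h.pos x))
  have h1 : ContDiff ℝ ∞ (nn s 1) := contDiff_iff_contDiffAt.2 fun x =>
    cd_g1 (h.sm 0).contDiffAt (h.sm 1).contDiffAt (pos_t (h.pos x))
  fin_cases j
  · exact h0
  · exact h1
  · exact contDiff_iff_contDiffAt.2 fun x => cd_cr3 h0.contDiffAt h1.contDiffAt

theorem Bas.nn_per (h : Bas s) (j : Fin 3) : Per4 (nn s j) := by
  intro n x
  simp only [nn, h.per _ n x]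

theorem Bas.fr (h : Bas s) : Fr (fun j x => qv (nn s j x)) := by
  refine ⟨fun j => qvL.contDiff.comp (h.nn_sm j), fun j k x => ?_, fun x => ?_⟩
  · change qv (nn s j (tr k x)) = qv (nn s j x)
    rw [h.nn_per j k x]
  · have h1 := tri_of (a := nn s 0 x) (b := nn s 1 x) (g00 (h.pos x)) (g11 (h.pos x)) (g01 _ _)
    exact h1

/-- the combination of the basis, and of the frame -/
def Au (s : Fin 3 → R4 → V3) (x : R4) (u : V3) : V3 := u 0 • s 0 x + u 1 • s 1 x + u 2 • s 2 x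

/-! ## The phase -/

/-- `exp (i π ∑ mᵢ xᵢ)` -/
def phs (m : Fin 4 → ℝ) (x : R4) : ℂ := Complex.exp (Real.pi * Complex.I * ((∑ i, m i * x i : ℝ) : ℂ))

theorem phs_sm (m : Fin 4 → ℝ) : ContDiff ℝ ∞ (phs m) := by
  unfold phs
  have h1 : ContDiff ℝ ∞ fun x : R4 => ∑ i, m i * x i := by fun_prop
  have h2 : ContDiff ℝ ∞ fun x : R4 => ((∑ i, m i * x i : ℝ) : ℂ) :=
    Complex.ofRealCLM.contDiff.comp h1
  exact Complex.contDiff_exp.comp (contDiff_const.mul h2)

theorem phs_norm (m : Fin 4 → ℝ) (x : R4) : ‖phs m x‖ = 1 := by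
  rw [phs, show (Real.pi : ℂ) * Complex.I * ((∑ i, m i * x i : ℝ) : ℂ) =
    ((Real.pi * ∑ i, m i * x i : ℝ) : ℂ) * Complex.I by push_cast; ring]
  exact Complex.norm_exp_ofReal_mul_I _

theorem phs_tr (m : Fin 4 → ℝ) (i : Fin 4) (x : R4) :
    phs m (tr (Pi.single i 1) x) = Complex.exp (Real.pi * Complex.I * m i) * phs m x := by
  rw [phs, phs, ← Complex.exp_add]
  congr 1
  have h1 : ∑ j, m j * (tr (Pi.single i 1) x) j = m i + ∑ j, m j * x j := by
    simp only [tr, mul_add, Finset.sum_add_distrib, Pi.single_apply]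
    rw [add_comm]
    congr 1
    simp
  rw [h1]
  push_cast
  ring

theorem exists_phase {U : R4 → ℍ[ℝ]}
    (h : ∀ k : Fin 4 → ℤ, ∃ σ : ℝ, (σ = 1 ∨ σ = -1) ∧ ∀ x, U (fun i => x i + k i) = σ • U x) :
    ∃ m : Fin 4 → ℝ, ∀ f : Sp, Per4 fun x => phs m x • rep (U x) f := by
  choose σ hσ hU using h
  refine ⟨fun i => if σ (Pi.single i 1) = 1 then 0 else 1, fun f => per4_of_gen fun i x => ?_⟩
  rw [phs_tr]
  have h1 : U (tr (Pi.single i 1) x) = σ (Pi.single i 1) • U x := hU _ x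
  have hpi : Complex.exp (Real.pi * Complex.I) = -1 := Complex.exp_pi_mul_I
  rw [h1]
  rcases hσ (Pi.single i 1) with h2 | h2
  · rw [h2]
    simp
  · have hne : ¬ ((-1 : ℝ) = 1) := by norm_num
    rw [h2, if_neg hne]
    rw [neg_one_smul ℝ (U x), map_neg]
    have h3 : (-rep (U x)) f = -(rep (U x) f) := rfl
    rw [h3]
    push_cast
    rw [mul_one, hpi]
    rw [neg_one_mul, neg_smul, smul_neg, neg_neg]

end Vale.Agent.P247.H329
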