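import Vale.Agent.P247.H329.T7

/-!
# P247, stage 2, package TRI: the eigenspinor, uniformly in the direction
-/

open scoped ContDiff Topology Quaternion
open Set Filter Metric

noncomputable section

namespace Vale.Agent.P247.H329

open Vale.Agent.P247.H74 Vale.Agent.P247.H574 Vale.Agent.P247.H647

/-- parameters: a direction and a spinor -/
abbrev PP : Type := V3 × Sp

/-! ## Smoothness of the algebraic operations -/

section smooth

variable {X : Type*} [NormedAddCommGroup X] [NormedSpace ℝ X]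

theorem cd_opSp (L : En) {f : X → Sp} {x : X} (hf : ContDiffAt ℝ ∞ f x) :
    ContDiffAt ℝ ∞ (fun x => L (f x)) x :=
  (L.restrictScalars ℝ).contDiff.contDiffAt.comp x hf

theorem cd_ofReal {r : X → ℝ} {x : X} (hr : ContDiffAt ℝ ∞ r x) :
    ContDiffAt ℝ ∞ (fun x => (r x : ℂ)) x :=
  Complex.ofRealCLM.contDiff.contDiffAt.comp x hr

theorem cd_sgv {a : X → V3} {f : X → Sp} {x : X} (ha : ContDiffAt ℝ ∞ a x)
    (hf : ContDiffAt ℝ ∞ f x) : ContDiffAt ℝ ∞ (fun x => sgv (a x) (f x)) x := by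
  have h1 : (fun x => sgv (a x) (f x)) = fun x => ∑ k, (a x k : ℂ) • pau k (f x) := by
    funext x
    exact (sgv_sum _ _).symm
  rw [h1]
  exact ContDiffAt.sum fun k _ => (cd_ofReal (contDiffAt_pi.1 ha k)).smul (cd_opSp (pau k) hf)

/-- coordinates of a quaternion -/
def reL : ℍ[ℝ] →L[ℝ] ℝ := LinearMap.toContinuousLinearMap
  { toFun := fun q => q.re, map_add' := fun _ _ => rfl, map_smul' := fun _ _ => rfl }
def iL : ℍ[ℝ] →L[ℝ] ℝ := LinearMap.toContinuousLinearMap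
  { toFun := fun q => q.imI, map_add' := fun _ _ => rfl, map_smul' := fun _ _ => rfl }
def jL : ℍ[ℝ] →L[ℝ] ℝ := LinearMap.toContinuousLinearMap
  { toFun := fun q => q.imJ, map_add' := fun _ _ => rfl, map_smul' := fun _ _ => rfl }
def kL : ℍ[ℝ] →L[ℝ] ℝ := LinearMap.toContinuousLinearMap
  { toFun := fun q => q.imK, map_add' := fun _ _ => rfl, map_smul' := fun _ _ => rfl }

theorem cd_rep {U : X → ℍ[ℝ]} {f : X → Sp} {x : X} (hU : ContDiffAt ℝ ∞ U x)
    (hf : ContDiffAt ℝ ∞ f x) : ContDiffAt ℝ ∞ (fun x => rep (U x) (f x)) x := by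
  have h0 : ContDiffAt ℝ ∞ (fun x => ((U x).re : ℂ)) x :=
    cd_ofReal (reL.contDiff.contDiffAt.comp x hU)
  have h1 : ContDiffAt ℝ ∞ (fun x => ((U x).imI : ℂ)) x :=
    cd_ofReal (iL.contDiff.contDiffAt.comp x hU)
  have h2 : ContDiffAt ℝ ∞ (fun x => ((U x).imJ : ℂ)) x :=
    cd_ofReal (jL.contDiff.contDiffAt.comp x hU)
  have h3 : ContDiffAt ℝ ∞ (fun x => ((U x).imK : ℂ)) x :=
    cd_ofReal (kL.contDiff.contDiffAt.comp x hU)
  have h4 : (fun x => rep (U x) (f x)) = fun x => ((U x).re : ℂ) • f x - Complex.I •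
      (((U x).imI : ℂ) • pau 0 (f x) + ((U x).imJ : ℂ) • pau 1 (f x) +
        ((U x).imK : ℂ) • pau 2 (f x)) := by
    funext x
    exact rep_def _ _
  rw [h4]
  have h5 : ContDiffAt ℝ ∞ (fun x => ((U x).imI : ℂ) • pau 0 (f x) +
      ((U x).imJ : ℂ) • pau 1 (f x) + ((U x).imK : ℂ) • pau 2 (f x)) x :=
    ((h1.smul (cd_opSp (pau 0) hf)).add (h2.smul (cd_opSp (pau 1) hf))).add
      (h3.smul (cd_opSp (pau 2) hf))
  exact (h0.smul hf).sub (h5.const_smul Complex.I)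

end smooth

/-! ## The construction -/

section con

variable {s : Fin 3 → R4 → V3} {U : R4 → ℍ[ℝ]} {m : Fin 4 → ℝ}

/-- the transported spinor -/
def yy (U : R4 → ℍ[ℝ]) (m : Fin 4 → ℝ) (q : PP × R4) : Sp := phs m q.2 • rep (U q.2) q.1.2

/-- its projection -/
def ww (s : Fin 3 → R4 → V3) (U : R4 → ℍ[ℝ]) (m : Fin 4 → ℝ) (q : PP × R4) : Sp :=
  prj (Au s q.2 q.1.1) (yy U m q)

/-- the eigenspinor -/
def GG (s : Fin 3 → R4 → V3) (U : R4 → ℍ[ℝ]) (m : Fin 4 → ℝ) (q : PP × R4) : Sp :=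
  ((Real.sqrt (2 * len (Au s q.2 q.1.1)) * ‖ww s U m q‖⁻¹ : ℝ) : ℂ) • ww s U m q

theorem yy_sm (hU : LiftOn (fun j x => qv (nn s j x)) U univ) (q : PP × R4) :
    ContDiffAt ℝ ∞ (yy U m) q := by
  have h1 : ContDiffAt ℝ ∞ (fun q : PP × R4 => U q.2) q :=
    (hU.sm.contDiffAt univ_mem).comp q contDiffAt_snd
  have h2 : ContDiffAt ℝ ∞ (fun q : PP × R4 => q.1.2) q :=
    contDiffAt_snd.comp q contDiffAt_fst
  have h3 : ContDiffAt ℝ ∞ (fun q : PP × R4 => phs m q.2) q :=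
    (phs_sm m).contDiffAt.comp q contDiffAt_snd
  exact h3.smul (cd_rep h1 h2)

theorem Au_sm (h : Bas s) (q : PP × R4) : ContDiffAt ℝ ∞ (fun q : PP × R4 => Au s q.2 q.1.1) q := by
  have h1 : ∀ j, ContDiffAt ℝ ∞ (fun q : PP × R4 => s j q.2) q := fun j =>
    (h.sm j).contDiffAt.comp q contDiffAt_snd
  have h2 : ContDiffAt ℝ ∞ (fun q : PP × R4 => q.1.1) q :=
    contDiffAt_fst.comp q contDiffAt_fst
  have h3 : ∀ j, ContDiffAt ℝ ∞ (fun q : PP × R4 => q.1.1 j) q := fun j => contDiffAt_pi.1 h2 j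
  exact (((h3 0).smul (h1 0)).add ((h3 1).smul (h1 1))).add ((h3 2).smul (h1 2))

theorem ww_sm (h : Bas s) (hU : LiftOn (fun j x => qv (nn s j x)) U univ) {q : PP × R4}
    (hA : Au s q.2 q.1.1 ≠ 0) : ContDiffAt ℝ ∞ (ww s U m) q := by
  have h1 := yy_sm (m := m) hU q
  have h2 := Au_sm h q
  exact ((cd_ofReal (cd_len h2 hA)).smul h1).add (cd_sgv h2 h1)

theorem len_cont : Continuous len := by
  unfold len
  fun_prop

theorem ww_cont (h : Bas s) (hU : LiftOn (fun j x => qv (nn s j x)) U univ) :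
    Continuous (ww s U m) := by
  have h1 : Continuous (yy U m) := continuous_iff_continuousAt.2 fun q =>
    (yy_sm (m := m) hU q).continuousAt
  have h2 : Continuous (fun q : PP × R4 => Au s q.2 q.1.1) := continuous_iff_continuousAt.2
    fun q => (Au_sm h q).continuousAt
  have h3 : Continuous (fun q : PP × R4 => sgv (Au s q.2 q.1.1) (yy U m q)) :=
    continuous_iff_continuousAt.2 fun q => (cd_sgv (Au_sm h q) (yy_sm (m := m) hU q)).continuousAt
  exact ((Complex.continuous_ofReal.comp (len_cont.comp h2)).smul h1).add h3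

/-- the good open set -/
def WW (s : Fin 3 → R4 → V3) (U : R4 → ℍ[ℝ]) (m : Fin 4 → ℝ) : Set (PP × R4) :=
  {q | Au s q.2 q.1.1 ≠ 0 ∧ ww s U m q ≠ 0}

theorem WW_open (h : Bas s) (hU : LiftOn (fun j x => qv (nn s j x)) U univ) :
    IsOpen (WW s U m) := by
  have h2 : Continuous (fun q : PP × R4 => Au s q.2 q.1.1) := continuous_iff_continuousAt.2
    fun q => (Au_sm h q).continuousAt
  exact (isOpen_ne_fun h2 continuous_const).inter (isOpen_ne_fun (ww_cont h hU) continuous_const)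

theorem GG_sm (h : Bas s) (hU : LiftOn (fun j x => qv (nn s j x)) U univ) :
    ContDiffOn ℝ ∞ (GG s U m) (WW s U m) := by
  intro q hq
  have h1 := ww_sm (m := m) h hU hq.1
  have h2 := cd_len (Au_sm h q) hq.1
  have h3 : 0 < len (Au s q.2 q.1.1) := len_pos hq.1
  have h4 : ContDiffAt ℝ ∞ (fun q : PP × R4 => Real.sqrt (2 * len (Au s q.2 q.1.1))) q :=
    (contDiffAt_const.mul h2).sqrt (by positivity)
  have h5 : ContDiffAt ℝ ∞ (fun q => ‖ww s U m q‖⁻¹) q :=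
    (h1.norm ℂ hq.2).inv (norm_ne_zero_iff.2 hq.2)
  exact ((cd_ofReal (h4.mul h5)).smul h1).contDiffWithinAt

/-- the compact set of parameters -/
def KK (s : Fin 3 → R4 → V3) : Set PP :=
  {κ | len κ.1 = 1 ∧ ‖κ.2‖ = 1 ∧
    sgv (κ.1 0 • nn s 0 0 + κ.1 1 • nn s 1 0 + κ.1 2 • nn s 2 0) κ.2 = κ.2}

theorem abs_le_len (u : V3) (i : Fin 3) : |u i| ≤ len u := by
  rw [len]
  apply Real.le_sqrt_of_sq_le
  rw [sq_abs]
  exact Finset.single_le_sum (f := fun k => u k ^ 2) (fun k _ => sq_nonneg _) (Finset.mem_univ i)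

theorem KK_compact : IsCompact (KK s) := by
  refine IsCompact.of_isClosed_subset
    ((isCompact_closedBall (0 : V3) 1).prod (isCompact_closedBall (0 : Sp) 1)) ?_ ?_
  · have c1 : Continuous fun κ : PP => len κ.1 := len_cont.comp continuous_fst
    have c2 : Continuous fun κ : PP => ‖κ.2‖ := continuous_snd.norm
    have c3 : Continuous fun κ : PP =>
        sgv (κ.1 0 • nn s 0 0 + κ.1 1 • nn s 1 0 + κ.1 2 • nn s 2 0) κ.2 := by
      refine continuous_iff_continuousAt.2 fun κ => ?_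
      have h2 : ContDiffAt ℝ ∞ (fun κ : PP => κ.1) κ := contDiffAt_fst
      have h3 : ∀ j, ContDiffAt ℝ ∞ (fun κ : PP => κ.1 j) κ := fun j => contDiffAt_pi.1 h2 j
      exact (cd_sgv ((((h3 0).smul contDiffAt_const).add ((h3 1).smul contDiffAt_const)).add
        ((h3 2).smul contDiffAt_const)) contDiffAt_snd).continuousAt
    exact (isClosed_eq c1 continuous_const).inter ((isClosed_eq c2 continuous_const).inter
      (isClosed_eq c3 continuous_snd))
  · intro κ hκ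
    refine ⟨?_, ?_⟩
    · rw [mem_closedBall_zero_iff, pi_norm_le_iff_of_nonneg zero_le_one]
      intro i
      rw [Real.norm_eq_abs, ← hκ.1]
      exact abs_le_len _ i
    · rw [mem_closedBall_zero_iff]
      exact hκ.2.1.le

theorem lift_j (h : Bas s) (hU : LiftOn (fun j x => qv (nn s j x)) U univ) (j : Fin 3) (x : R4) :
    qv (nn s j x) * U x = U x * qv (nn s j 0) := by
  have h0 : qv (nn s 0 x) * U x = U x * qv (nn s 0 0) := hU.ia x trivial
  have h1 : qv (nn s 1 x) * U x = U x * qv (nn s 1 0) := hU.ib x trivial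
  fin_cases j
  · exact h0
  · exact h1
  · change qv (nn s 2 x) * U x = U x * qv (nn s 2 0)
    have t1 : qv (nn s 0 x) * qv (nn s 1 x) = qv (nn s 2 x) := (h.fr.tri x).ab
    have t2 : qv (nn s 0 0) * qv (nn s 1 0) = qv (nn s 2 0) := (h.fr.tri 0).ab
    rw [← t1, ← t2, mul_assoc, h1, ← mul_assoc, h0, mul_assoc]

theorem sgv_yy (h : Bas s) (hU : LiftOn (fun j x => qv (nn s j x)) U univ) (j : Fin 3)
    (κ : PP) (x : R4) :
    sgv (nn s j x) (yy U m (κ, x)) = phs m x • rep (U x) (sgv (nn s j 0) κ.2) := by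
  rw [yy, map_smul, sgv_eq_rep, sgv_eq_rep, ← rep_mul, lift_j h hU, rep_mul, map_smul]

theorem yy_eig (h : Bas s) (hU : LiftOn (fun j x => qv (nn s j x)) U univ) {κ : PP}
    (hκ : κ ∈ KK s) (x : R4) :
    sgv (κ.1 0 • nn s 0 x + κ.1 1 • nn s 1 x + κ.1 2 • nn s 2 x) (yy U m (κ, x)) =
      yy U m (κ, x) := by
  have h1 := hκ.2.2
  rw [sgv_add, sgv_add, sgv_smul, sgv_smul, sgv_smul] at h1 ⊢
  rw [sgv_yy h hU, sgv_yy h hU, sgv_yy h hU]
  conv_rhs => rw [yy, ← h1, map_add, map_add, map_smul, map_smul, map_smul]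
  rw [smul_add, smul_add, smul_comm, smul_comm (κ.1 1 : ℂ), smul_comm (κ.1 2 : ℂ)]

theorem yy_ne (hU : LiftOn (fun j x => qv (nn s j x)) U univ) {κ : PP}
    (hκ : κ ∈ KK s) (x : R4) : yy U m (κ, x) ≠ 0 := by
  intro h0
  have h1 : rep (U x) κ.2 = 0 := by
    rcases smul_eq_zero.1 h0 with h2 | h2
    · have := phs_norm m x
      rw [h2, norm_zero] at this
      norm_num at this
    · exact h2
  have h2 : star (U x) * U x = 1 := by
    rw [Quaternion.star_mul_self, Quaternion.normSq_eq_norm_mul_self, hU.unit x trivial]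
    norm_num
  have h3 : κ.2 = 0 := by
    rw [← rep_one κ.2, ← h2, rep_mul, h1, map_zero]
  have h4 := hκ.2.1
  rw [h3, norm_zero] at h4
  norm_num at h4

theorem ww_ne (h : Bas s) (hU : LiftOn (fun j x => qv (nn s j x)) U univ) {κ : PP}
    (hκ : κ ∈ KK s) (x : R4) : ww s U m (κ, x) ≠ 0 := by
  refine prj_ne (yy_ne hU hκ x) (yy_eig h hU hκ x) ?_
  rintro ⟨t, ht, h1⟩
  have h2 := no_anti (h.pos x) ht (u := κ.1) h1
  have h3 := hκ.1
  rw [h2] at h3
  simp [len] at h3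

theorem Au_ne (h : Bas s) {u : V3} (hu : u ≠ 0) (x : R4) : Au s x u ≠ 0 := by
  intro h0
  apply hu
  refine no_anti (h.pos x) (le_refl 0) (u := u) ?_
  rw [zero_smul, neg_zero]
  exact h0

theorem KK_ne {κ : PP} (hκ : κ ∈ KK s) : κ.1 ≠ 0 := by
  intro h2
  have h3 := hκ.1
  rw [h2] at h3
  simp [len] at h3

theorem KK_sub (h : Bas s) (hU : LiftOn (fun j x => qv (nn s j x)) U univ) {κ : PP}
    (hκ : κ ∈ KK s) (x : R4) : (κ, x) ∈ WW s U m :=
  ⟨Au_ne h (KK_ne hκ) x, ww_ne h hU hκ x⟩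

theorem Au_tr (h : Bas s) (n : Fin 4 → ℤ) (x : R4) (u : V3) : Au s (tr n x) u = Au s x u := by
  simp only [Au, h.per _ n x]

theorem GG_ub (h : Bas s) (hU : LiftOn (fun j x => qv (nn s j x)) U univ)
    (hm : ∀ f : Sp, Per4 fun x => phs m x • rep (U x) f) : UB (KK s) (WW s U m) (GG s U m) := by
  refine ⟨WW_open h hU, fun κ hκ x => KK_sub h hU hκ x, GG_sm h hU, fun κ _ n x => ?_⟩
  have h1 : yy U m (κ, tr n x) = yy U m (κ, x) := hm κ.2 n x
  have h2 : ww s U m (κ, tr n x) = ww s U m (κ, x) := by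
    simp only [ww, h1, Au_tr h]
  simp only [GG, h2, Au_tr h]

theorem GG_norm (h : Bas s) (hU : LiftOn (fun j x => qv (nn s j x)) U univ) {κ : PP}
    (hκ : κ ∈ KK s) (x : R4) : ‖GG s U m (κ, x)‖ ^ 2 = 2 * len (Au s x κ.1) := by
  have h1 : ‖ww s U m (κ, x)‖ ≠ 0 := norm_ne_zero_iff.2 (ww_ne h hU hκ x)
  have h2 : 0 ≤ 2 * len (Au s x κ.1) := by
    have := len_nonneg (Au s x κ.1)
    linarith
  rw [GG, norm_smul, Complex.norm_real, Real.norm_of_nonneg (by positivity), mul_assoc,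
    inv_mul_cancel₀ h1, mul_one, Real.sq_sqrt h2]

theorem GG_eig (κ : PP) (x : R4) :
    sgv (Au s x κ.1) (GG s U m (κ, x)) = (len (Au s x κ.1) : ℂ) • GG s U m (κ, x) := by
  have h1 : sgv (Au s x κ.1) (ww s U m (κ, x)) = (len (Au s x κ.1) : ℂ) • ww s U m (κ, x) :=
    sgv_prj _ _
  rw [GG, map_smul, h1, smul_comm]

end con

/-- the eigenspinor of the combination, uniformly in the direction -/
theorem main_eig {s : Fin 3 → R4 → V3} (h : Bas s) :
    ∃ (K : Set PP) (W : Set (PP × R4)) (G : PP × R4 → Sp), IsCompact K ∧ UB K W G ∧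
      (∀ u : V3, len u = 1 → ∃ f : Sp, (u, f) ∈ K) ∧ (∀ κ ∈ K, κ.1 ≠ 0) ∧
      ∀ κ ∈ K, ∀ x, ‖G (κ, x)‖ ^ 2 = 2 * len (Au s x κ.1) ∧
        sgv (Au s x κ.1) (G (κ, x)) = (len (Au s x κ.1) : ℂ) • G (κ, x) := by
  obtain ⟨U, hU⟩ := exists_lift h.fr
  obtain ⟨m, hm⟩ := exists_phase (lift_per h.fr hU)
  refine ⟨KK s, WW s U m, GG s U m, KK_compact, GG_ub h hU hm, fun u hu => ?_,
    fun κ hκ => KK_ne hκ, fun κ hκ x => ⟨GG_norm h hU hκ x, GG_eig κ x⟩⟩
  have h1 : dt3 (u 0 • nn s 0 0 + u 1 • nn s 1 0 + u 2 • nn s 2 0)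
      (u 0 • nn s 0 0 + u 1 • nn s 1 0 + u 2 • nn s 2 0) = 1 := by
    have e00 : dt3 (nn s 0 0) (nn s 0 0) = 1 := g00 (h.pos 0)
    have e11 : dt3 (nn s 1 0) (nn s 1 0) = 1 := g11 (h.pos 0)
    have e22 : dt3 (nn s 2 0) (nn s 2 0) = 1 := g22 (h.pos 0)
    have e01 : dt3 (nn s 0 0) (nn s 1 0) = 0 := g01 _ _
    have e02 : dt3 (nn s 0 0) (nn s 2 0) = 0 := g02 _ _
    have e12 : dt3 (nn s 1 0) (nn s 2 0) = 0 := g12 _ _
    have hu2 : dt3 u u = 1 := by rw [← len_sq, hu]; norm_num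
    simp only [dt3] at e00 e11 e22 e01 e02 e12 hu2
    simp only [dt3, Pi.add_apply, Pi.smul_apply, smul_eq_mul]
    linear_combination hu2 + (u 0) ^ 2 * e00 + (u 1) ^ 2 * e11 + (u 2) ^ 2 * e22 +
      2 * u 0 * u 1 * e01 + 2 * u 0 * u 2 * e02 + 2 * u 1 * u 2 * e12
  obtain ⟨f, hf1, hf2⟩ := exists_eig h1
  exact ⟨f, hu, hf1, hf2⟩

end Vale.Agent.P247.H329
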