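import Vale.Agent.P247.H329.T8

/-!
# P247, stage 2, package TRI: `TRI_statement`
-/

open scoped ContDiff Topology Quaternion
open Set Filter Metric

noncomputable section

namespace Vale.Agent.P247.H329

open Vale.Agent.P247.H74 Vale.Agent.P247.H574 Vale.Agent.P247.H647

/-! ## The form `θ` -/

section theta

variable {P : Type*} [NormedAddCommGroup P] [NormedSpace ℝ P] {D : Data} (Q : Quat D)
  (Z : R4 → En) (G : P × R4 → Sp)

/-- the value of the Dirac operator -/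
def YG (q : P × R4) : Sp := ∑ c, sig c (sl G q (Q.b c q.2)) + Z q.2 (G q)

/-- the one-form -/
def TG (q : P × R4) : R4 →L[ℝ] ℝ :=
  ∑ c, (zr (G q) (YG Q Z G q) c * (‖G q‖ ^ 2)⁻¹) • cof Q q.2 c

variable {Q Z G} {K : Set P} {W : Set (P × R4)}

theorem YG_sm (hZ : ContDiff ℝ ∞ Z) (h : UB K W G) : ContDiffOn ℝ ∞ (YG Q Z G) W := by
  have h1 : ∀ c, ContDiffOn ℝ ∞ (fun q => sig c (sl G q (Q.b c q.2))) W := by
    intro c
    have hb : ContDiffOn ℝ ∞ (fun q : P × R4 => Q.b c q.2) W :=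
      ((Q.b_smooth c).comp contDiff_snd).contDiffOn
    exact ((sig c).restrictScalars ℝ).contDiff.comp_contDiffOn (h.deriv.sm.clm_apply hb)
  have h2 : ContDiffOn ℝ ∞ (fun q : P × R4 => (Z q.2).restrictScalars ℝ) W := by
    have h3 : ContDiff ℝ ∞ (fun q : P × R4 =>
        ContinuousLinearMap.restrictScalarsL ℂ Sp Sp ℝ ℝ (Z q.2)) :=
      (ContinuousLinearMap.restrictScalarsL ℂ Sp Sp ℝ ℝ).contDiff.comp (hZ.comp contDiff_snd)
    exact h3.contDiffOn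
  exact (ContDiffOn.sum fun c _ => h1 c).add (h2.clm_apply h.sm)

theorem TG_ub (hZ : ContDiff ℝ ∞ Z) (hZp : Per4 Z) (h : UB K W G)
    (hne : ∀ κ ∈ K, ∀ x, G (κ, x) ≠ 0) : UB K (W ∩ {q | G q ≠ 0}) (TG Q Z G) := by
  have hsub : W ∩ {q | G q ≠ 0} ⊆ W := inter_subset_left
  refine ⟨h.sm.continuousOn.isOpen_inter_preimage h.op isOpen_ne,
    fun κ hκ x => ⟨h.sub κ hκ x, hne κ hκ x⟩, ?_, fun κ hκ n x => ?_⟩
  · have h1 : ContDiffOn ℝ ∞ G (W ∩ {q | G q ≠ 0}) := h.sm.mono hsub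
    have h2 : ContDiffOn ℝ ∞ (YG Q Z G) (W ∩ {q | G q ≠ 0}) := (YG_sm hZ h).mono hsub
    have h3 : ContDiffOn ℝ ∞ (fun q => (‖G q‖ ^ 2)⁻¹) (W ∩ {q | G q ≠ 0}) :=
      (h1.norm_sq ℂ).inv fun q hq => pow_ne_zero 2 (norm_ne_zero_iff.2 hq.2)
    unfold TG
    refine ContDiffOn.sum fun c _ => ?_
    have h4 : ContDiffOn ℝ ∞ (fun q : P × R4 => cof Q q.2 c) (W ∩ {q | G q ≠ 0}) :=
      ((contDiff_cof Q c).comp contDiff_snd).contDiffOn
    exact ((cd_zr h1 h2 c).mul h3).smul h4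
  · have e1 : G (κ, tr n x) = G (κ, x) := h.per κ hκ n x
    have e2 : sl G (κ, tr n x) = sl G (κ, x) := h.deriv.per κ hκ n x
    have e3 : YG Q Z G (κ, tr n x) = YG Q Z G (κ, x) := by
      simp only [YG, e1, e2, hZp n x]
      congr 1
      refine Finset.sum_congr rfl fun c _ => ?_
      rw [Q.b_per c n x]
    simp only [TG, e1, e3, cof_per]

omit [NormedAddCommGroup P] [NormedSpace ℝ P] in
theorem TG_spec {q : P × R4} (hne : G q ≠ 0) :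
    ∑ c, sig c (sl G q (Q.b c q.2)) + Z q.2 (G q) =
      ∑ c, (Complex.I * (TG Q Z G q (Q.b c q.2) : ℂ)) • sig c (G q) := by
  have h0 : ‖G q‖ ^ 2 ≠ 0 := pow_ne_zero 2 (norm_ne_zero_iff.2 hne)
  have h1 : ∀ c, TG Q Z G q (Q.b c q.2) = zr (G q) (YG Q Z G q) c * (‖G q‖ ^ 2)⁻¹ := by
    intro c
    simp only [TG, _root_.sum_apply, _root_.smul_apply, cof_b, smul_eq_mul, mul_ite, mul_one,
      mul_zero]
    simp
  have h2 := zr_spec (G q) (YG Q Z G q)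
  have h3 : ∑ c, (Complex.I * (TG Q Z G q (Q.b c q.2) : ℂ)) • sig c (G q) =
      (((‖G q‖ ^ 2)⁻¹ : ℝ) : ℂ) • ∑ c, (Complex.I * (zr (G q) (YG Q Z G q) c : ℂ)) • sig c (G q) := by
    rw [Finset.smul_sum]
    refine Finset.sum_congr rfl fun c _ => ?_
    rw [h1, smul_smul]
    congr 1
    push_cast
    ring
  rw [h3, h2, smul_smul, ← Complex.ofReal_mul, inv_mul_cancel₀ h0, Complex.ofReal_one, one_smul]
  rfl

end theta

/-! ## The basis from the frame -/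

section tri

variable {D : Data} (Q : Quat D)

/-- the columns of `σ T⁻¹` -/
def sT (σ : ℝ) (j : Fin 3) (x : R4) : V3 := fun i => σ * (Q.T x)⁻¹ i j

theorem sT_sm (σ : ℝ) (j : Fin 3) : ContDiff ℝ ∞ (sT Q σ j) := by
  refine contDiff_pi.2 fun i => contDiff_const.mul ?_
  exact contDiff_inv3 Q.T_smooth Q.T_det i j

theorem sT_per (σ : ℝ) (j : Fin 3) : Per4 (sT Q σ j) := by
  intro n x
  have h1 : Q.T (tr n x) = Q.T x := by
    ext i j
    exact Q.T_per i j n x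
  change (fun i => σ * (Q.T (tr n x))⁻¹ i j) = fun i => σ * (Q.T x)⁻¹ i j
  rw [h1]

theorem sT_dd (σ : ℝ) (x : R4) :
    dd3 (sT Q σ 0 x) (sT Q σ 1 x) (sT Q σ 2 x) = σ ^ 3 * ((Q.T x)⁻¹).det := by
  rw [Matrix.det_fin_three]
  simp only [dd3, dt3, cr3, sT, Matrix.cons_val_zero, Matrix.cons_val_one, Matrix.cons_val]
  ring

theorem Au_dv (σ : ℝ) (x : R4) (u : V3) : Au (sT Q σ) x u = σ • Q.dv x u := by
  funext i
  simp only [Au, sT, Quat.dv, Pi.add_apply, Pi.smul_apply, smul_eq_mul, Matrix.mulVec, dotProduct,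
    Fin.sum_univ_three]
  ring

theorem exists_bas : ∃ σ : ℝ, (σ = 1 ∨ σ = -1) ∧ Bas (sT Q σ) := by
  have hdet : ∀ x, ((Q.T x)⁻¹).det = ((Q.T x).det)⁻¹ := by
    intro x
    rw [Matrix.det_nonsing_inv, Ring.inverse_eq_inv']
  have hc : Continuous fun x => (Q.T x).det := (contDiff_det Q.T_smooth).continuous
  by_cases h : ∀ x, 0 < (Q.T x).det
  · refine ⟨1, Or.inl rfl, sT_sm Q 1, sT_per Q 1, fun x => ?_⟩
    rw [sT_dd, hdet]
    have := h x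
    positivity
  · push Not at h
    obtain ⟨x₀, hx₀⟩ := h
    have hneg : ∀ x, (Q.T x).det < 0 := by
      intro x
      by_contra hcon
      push Not at hcon
      obtain ⟨z, hz⟩ := mem_range_of_exists_le_of_exists_ge hc ⟨x₀, hx₀⟩ ⟨x, hcon⟩
      exact Q.T_det z hz
    refine ⟨-1, Or.inr rfl, sT_sm Q (-1), sT_per Q (-1), fun x => ?_⟩
    rw [sT_dd, hdet]
    have h1 : ((Q.T x).det)⁻¹ < 0 := inv_lt_zero.2 (hneg x)
    linarith

theorem rho_eq (u : V3) (x : R4) : Q.rho u x = 2 * len (Q.dv x u) := rfl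

/-- the two eigenspinors, uniformly in the direction -/
theorem exists_pair : ∃ (K : Set PP) (W : Set (PP × R4)) (Gp Gm : PP × R4 → Sp), IsCompact K ∧
    UB K W Gp ∧ UB K W Gm ∧ (∀ u : V3, len u = 1 → ∃ f : Sp, (u, f) ∈ K) ∧
    (∀ κ ∈ K, ∀ x, Gp (κ, x) ≠ 0) ∧
    ∀ κ ∈ K, ∀ x, ‖Gp (κ, x)‖ ^ 2 = Q.rho κ.1 x ∧ ‖Gm (κ, x)‖ ^ 2 = Q.rho κ.1 x ∧
      sgv (Q.dv x κ.1) (Gp (κ, x)) = (len (Q.dv x κ.1) : ℂ) • Gp (κ, x) ∧
      sgv (Q.dv x κ.1) (Gm (κ, x)) = -(len (Q.dv x κ.1) : ℂ) • Gm (κ, x) := by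
  obtain ⟨σ, hσ, hb⟩ := exists_bas Q
  obtain ⟨K, W, G, hK, hUB, hex, hne, hG⟩ := main_eig hb
  have hJ : UB K W (fun q => jS (G q)) := hUB.clm jS
  have hne0 : ∀ κ ∈ K, ∀ x, G (κ, x) ≠ 0 := by
    intro κ hκ x h0
    have h1 := (hG κ hκ x).1
    rw [h0, norm_zero] at h1
    have h2 := len_pos (Au_ne hb (hne κ hκ) x)
    linarith
  rcases hσ with rfl | rfl
  · refine ⟨K, W, G, fun q => jS (G q), hK, hUB, hJ, hex, hne0, fun κ hκ x => ?_⟩
    obtain ⟨h1, h2⟩ := hG κ hκ x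
    rw [Au_dv, one_smul] at h1 h2
    refine ⟨h1, ?_, h2, ?_⟩
    · rw [jS_norm]; exact h1
    · rw [jS_sgv, h2, jS_real, neg_smul]
  · refine ⟨K, W, fun q => jS (G q), G, hK, hJ, hUB, hex, fun κ hκ x h0 => ?_, fun κ hκ x => ?_⟩
    · apply hne0 κ hκ x
      rw [← norm_eq_zero, ← jS_norm]
      simp only at h0
      rw [h0, norm_zero]
    · obtain ⟨h1, h2⟩ := hG κ hκ x
      rw [Au_dv, neg_one_smul, len_neg] at h1 h2
      rw [sgv_neg] at h2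
      have h3 : sgv (Q.dv x κ.1) (G (κ, x)) = -((len (Q.dv x κ.1) : ℂ) • G (κ, x)) := by
        rw [← h2, neg_neg]
      refine ⟨?_, h1, ?_, ?_⟩
      · rw [jS_norm]; exact h1
      · rw [jS_sgv, h3, map_neg, neg_neg, jS_real]
      · rw [h3, neg_smul]

end tri

/-- `TRI` -/
theorem TRI : TRI_statement := by
  intro D Q Z hZ hZp
  obtain ⟨K, W, Gp, Gm, hK, hp, hm, hex, hne, hG⟩ := exists_pair Q
  obtain ⟨M₁, h₁⟩ := hp.bd hK
  obtain ⟨M₂, h₂⟩ := hm.bd hK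
  have hT : UB K (W ∩ {q | Gp q ≠ 0}) (TG Q Z Gp) := TG_ub hZ hZp hp hne
  obtain ⟨M₃, h₃⟩ := hT.bd hK
  have m1 : M₁ ≤ max M₁ (max M₂ M₃) := le_max_left _ _
  have m2 : M₂ ≤ max M₁ (max M₂ M₃) := (le_max_left _ _).trans (le_max_right _ _)
  have m3 : M₃ ≤ max M₁ (max M₂ M₃) := (le_max_right _ _).trans (le_max_right _ _)
  refine ⟨max M₁ (max M₂ M₃), fun u hu => ?_⟩
  obtain ⟨f, hf⟩ := hex u hu
  refine ⟨fun x => Gp ((u, f), x), fun x => Gm ((u, f), x), fun x => TG Q Z Gp ((u, f), x),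
    hp.contDiff hf, hm.contDiff hf, hT.contDiff hf, hp.per _ hf, hm.per _ hf, hT.per _ hf,
    Bd.mono (h₁ _ hf).1 m1, Bd.mono (h₂ _ hf).1 m2, Bd.mono (h₂ _ hf).2 m2,
    Bd.mono (h₃ _ hf).1 m3, fun x => (hG _ hf x).1, fun x => (hG _ hf x).2.1, fun x => ?_,
    fun x => ?_, fun x => ?_⟩
  · have h4 := (hG _ hf x).2.2.1
    rw [sgv_sum, h4, rho_eq]
    congr 1
    push_cast
    ring
  · have h4 := (hG _ hf x).2.2.2
    rw [sgv_sum, h4, rho_eq]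
    congr 1
    push_cast
    ring
  · exact TG_spec (Q := Q) (Z := Z) (G := Gp) (q := ((u, f), x)) (hne _ hf x)

end Vale.Agent.P247.H329
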